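import Mathlib
import Crest.Prelude.Def_BernoulliConv

/-!
The cosine transform of a Bernoulli convolution as a limit of finite cosine products, and the
second-moment identities of an exponential-sum statistic.
-/

set_option autoImplicit false

namespace Crest.Agent.R104

open MeasureTheory ProbabilityTheory Finset Real Filter Topology Crest.AnalysisR

instance : IsProbabilityMeasure fairCoin := ⟨by
  simp [fairCoin, ENNReal.inv_two_add_inv_two]⟩

lemma measurable_sps (c : ℝ) : Measurable (signedPowerSum c) := by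
  unfold signedPowerSum
  refine Measurable.tsum fun n => ?_
  exact (measurable_of_countable (fun b : Bool => if b then c ^ n else -(c ^ n))).comp
    (measurable_pi_apply n)

instance (c : ℝ) : IsProbabilityMeasure (bernoulliConvolution c) :=
  Measure.isProbabilityMeasure_map (measurable_sps c).aemeasurable

lemma norm_term (c : ℝ) (hc : 0 ≤ c) (ε : ℕ → Bool) (n : ℕ) :
    ‖(if ε n then c ^ n else -(c ^ n))‖ ≤ c ^ n := by
  split_ifs <;> simp [abs_of_nonneg hc]

lemma abs_sps_le {c : ℝ} (hc : 0 ≤ c) (hc1 : c < 1) (ε : ℕ → Bool) :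
    |signedPowerSum c ε| ≤ (1 - c)⁻¹ :=
  tsum_of_norm_bounded (hasSum_geometric_of_lt_one hc hc1) (norm_term c hc ε)

lemma bc_compl_Icc {c : ℝ} (hc : 0 ≤ c) (hc1 : c < 1) :
    bernoulliConvolution c (Set.Icc (-(1 - c)⁻¹) (1 - c)⁻¹)ᶜ = 0 := by
  unfold bernoulliConvolution
  rw [Measure.map_apply (measurable_sps c) measurableSet_Icc.compl]
  convert measure_empty (μ := Measure.infinitePi fun _ : ℕ => fairCoin)
  ext ε
  simpa [abs_le] using abs_sps_le hc hc1 ε

/-- The cosine transform of a measure on the line. -/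
noncomputable def psi (μ : Measure ℝ) (t : ℝ) : ℝ := ∫ x, cos (t * x) ∂μ

lemma integral_cos_partial (c t : ℝ) (K : ℕ) :
    ∫ ε : ℕ → Bool, cos (t * ∑ l ∈ range K, (if ε l then c ^ l else -(c ^ l)))
      ∂(Measure.infinitePi fun _ : ℕ => fairCoin) = ∏ l ∈ range K, cos (t * c ^ l) := by
  set P := Measure.infinitePi fun _ : ℕ => fairCoin with hP
  set g : ℕ → Bool → ℂ := fun l b =>
    Complex.exp (((t * (if b then c ^ l else -(c ^ l)) : ℝ) : ℂ) * Complex.I) with hg
  have hgm : ∀ l, Measurable (g l) := fun l => measurable_of_countable _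
  have hind : iIndepFun (fun (l : Fin K) (ε : ℕ → Bool) => g l (ε l)) P :=
    (iIndepFun_infinitePi (P := fun _ : ℕ => fairCoin) (X := g) hgm).precomp
      (g := fun l : Fin K => (l : ℕ)) Fin.val_injective
  have hm : ∀ l : ℕ, Measurable fun ε : ℕ → Bool => g l (ε l) :=
    fun l => (hgm l).comp (measurable_pi_apply l)
  have h1 := hind.integral_fun_prod_eq_prod_integral fun l => (hm l).aestronglyMeasurable
  have h2 : ∀ l : ℕ, ∫ ε : ℕ → Bool, g l (ε l) ∂P = (cos (t * c ^ l) : ℂ) := by
    intro l
    rw [← integral_map (φ := fun ε : ℕ → Bool => ε l) (f := g l)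
      (measurable_pi_apply l).aemeasurable (hgm l).aestronglyMeasurable, hP,
      Measure.infinitePi_map_eval, fairCoin,
      integral_add_measure (Integrable.of_finite.smul_measure (by simp))
        (Integrable.of_finite.smul_measure (by simp))]
    simp only [integral_smul_measure, integral_dirac, hg, Complex.ofReal_cos, Complex.cos]
    simp
    ring_nf
  simp only [h2] at h1
  have h3 : ∀ ε : ℕ → Bool, cos (t * ∑ l ∈ range K, (if ε l then c ^ l else -(c ^ l))) =
      RCLike.re (∏ l : Fin K, g l (ε l)) := by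
    intro ε
    rw [Fin.prod_univ_eq_prod_range (fun l => g l (ε l)) K]
    simp only [hg]
    rw [← Complex.exp_sum, ← Finset.sum_mul, ← Complex.ofReal_sum, ← Finset.mul_sum]
    exact (Complex.exp_ofReal_mul_I_re _).symm
  simp only [h3]
  rw [integral_re, h1, Fin.prod_univ_eq_prod_range (fun l => (cos (t * c ^ l) : ℂ)) K,
    ← Complex.ofReal_prod]
  · rfl
  · refine Integrable.of_bound
      (Finset.measurable_prod _ fun (l : Fin K) _ => hm l).aestronglyMeasurable 1 (ae_of_all _ fun ε => ?_)
    rw [norm_prod]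
    simp only [hg, Complex.norm_exp_ofReal_mul_I]
    simp

lemma psi_tendsto {c : ℝ} (hc : 0 ≤ c) (hc1 : c < 1) (t : ℝ) :
    Tendsto (fun K => ∏ l ∈ range K, cos (t * c ^ l)) atTop
      (𝓝 (psi (bernoulliConvolution c) t)) := by
  unfold psi bernoulliConvolution
  rw [integral_map (measurable_sps c).aemeasurable (by fun_prop)]
  simp only [← integral_cos_partial]
  refine tendsto_integral_of_dominated_convergence (fun _ => 1) (fun K => ?_)
    (integrable_const _) (fun K => ae_of_all _ fun ε => abs_cos_le_one _)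
    (ae_of_all _ fun ε => ?_)
  · refine Measurable.aestronglyMeasurable (Real.measurable_cos.comp
      (measurable_const.mul (Finset.measurable_sum _ fun n _ => ?_)))
    exact (measurable_of_countable (fun b : Bool => if b then c ^ n else -(c ^ n))).comp
      (measurable_pi_apply n)
  · have hs : Summable fun n => (if ε n then c ^ n else -(c ^ n)) :=
      Summable.of_norm_bounded (summable_geometric_of_lt_one hc hc1) (norm_term c hc ε)
    exact (continuous_cos.tendsto _).comp (hs.hasSum.tendsto_sum_nat.const_mul t)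

lemma integrable_cos (μ : Measure ℝ) [IsFiniteMeasure μ] (t : ℝ) :
    Integrable (fun x => cos (t * x)) μ :=
  Integrable.of_bound (by fun_prop) 1 (ae_of_all _ fun _ => abs_cos_le_one _)

lemma psi_zero (μ : Measure ℝ) : psi μ 0 = μ.real Set.univ := by simp [psi]

lemma abs_psi_Icc (B t : ℝ) (hB : 0 ≤ B) (ht : t ≠ 0) :
    psi (volume.restrict (Set.Icc (-B) B)) t ≤ 2 / |t| := by
  unfold psi
  rw [integral_Icc_eq_integral_Ioc, ← intervalIntegral.integral_of_le (by linarith),
    intervalIntegral.integral_comp_mul_left _ ht, integral_cos, smul_eq_mul]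
  refine (le_abs_self _).trans ?_
  rw [abs_mul, abs_inv, div_eq_mul_inv, mul_comm]
  gcongr
  refine (abs_sub _ _).trans ?_
  linarith [abs_sin_le_one (t * B), abs_sin_le_one (t * -B)]

/-- Mean of the cosines. -/
noncomputable def cosAvg (L : ℕ) (t : ℕ → ℝ) (x : ℝ) : ℝ :=
  (∑ i ∈ range L, cos (t i * x)) / L

/-- Squared modulus of the mean of the exponentials. -/
noncomputable def sqAvg (L : ℕ) (t : ℕ → ℝ) (x : ℝ) : ℝ :=
  (∑ i ∈ range L, ∑ j ∈ range L, cos ((t i - t j) * x)) / L ^ 2

lemma cosAvg_sq_le (L : ℕ) (t : ℕ → ℝ) (x : ℝ) : cosAvg L t x ^ 2 ≤ sqAvg L t x := by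
  unfold cosAvg sqAvg
  rw [div_pow]
  gcongr
  simp only [sub_mul, cos_sub, Finset.sum_add_distrib, ← Finset.mul_sum, ← Finset.sum_mul]
  nlinarith [mul_self_nonneg (∑ i ∈ range L, sin (t i * x))]

lemma integrable_cosAvg (μ : Measure ℝ) [IsFiniteMeasure μ] (L : ℕ) (t : ℕ → ℝ) :
    Integrable (cosAvg L t) μ :=
  (integrable_finsetSum _ fun i _ => integrable_cos μ (t i)).div_const _

lemma integrable_sqAvg (μ : Measure ℝ) [IsFiniteMeasure μ] (L : ℕ) (t : ℕ → ℝ) :
    Integrable (sqAvg L t) μ :=
  (integrable_finsetSum _ fun i _ =>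
    integrable_finsetSum _ fun j _ => integrable_cos μ (t i - t j)).div_const _

lemma integral_cosAvg (μ : Measure ℝ) [IsFiniteMeasure μ] (L : ℕ) (t : ℕ → ℝ) :
    ∫ x, cosAvg L t x ∂μ = (∑ i ∈ range L, psi μ (t i)) / L := by
  unfold cosAvg psi
  rw [integral_div, integral_finsetSum _ fun i _ => integrable_cos μ (t i)]

lemma integral_sqAvg_le (μ : Measure ℝ) [IsFiniteMeasure μ] (L : ℕ) (hL : 0 < L) (t : ℕ → ℝ)
    (b : ℝ) (hb0 : 0 ≤ b) (hb : ∀ i j, i ≠ j → psi μ (t i - t j) ≤ b) :
    ∫ x, sqAvg L t x ∂μ ≤ μ.real Set.univ / L + b := by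
  have hLr : (0 : ℝ) < L := by exact_mod_cast hL
  unfold sqAvg
  rw [integral_div, integral_finsetSum _ fun i _ =>
    integrable_finsetSum _ fun j _ => integrable_cos μ (t i - t j), div_le_iff₀ (by positivity)]
  calc ∑ i ∈ range L, ∫ x, ∑ j ∈ range L, cos ((t i - t j) * x) ∂μ
      ≤ ∑ _i ∈ range L, (μ.real Set.univ + L * b) := by
        refine Finset.sum_le_sum fun i hi => ?_
        rw [integral_finsetSum _ fun j _ => integrable_cos μ (t i - t j)]
        calc ∑ j ∈ range L, psi μ (t i - t j)
            ≤ ∑ j ∈ range L, ((if j = i then μ.real Set.univ else 0) + b) := by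
              refine Finset.sum_le_sum fun j _ => ?_
              by_cases h : j = i
              · rw [if_pos h, h, sub_self, psi_zero]; linarith
              · rw [if_neg h, zero_add]; exact hb i j (Ne.symm h)
          _ = _ := by
              rw [Finset.sum_add_distrib, Finset.sum_ite_eq' , if_pos hi]; simp
    _ = _ := by
        simp only [Finset.sum_const, Finset.card_range, nsmul_eq_mul]
        field_simp

end Crest.Agent.R104
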