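import Mathlib

/-!
Elementary bounds for finite cosine products, geometric sums and a Dirichlet approximation step.
-/

set_option autoImplicit false

namespace Crest.Agent.R104

open Finset Real

lemma abs_prod_le_one {ι : Type} (S : Finset ι) (f : ι → ℝ) (hf : ∀ i, |f i| ≤ 1) :
    |∏ i ∈ S, f i| ≤ 1 := by
  rw [Finset.abs_prod]
  exact Finset.prod_le_one (fun i _ => abs_nonneg _) fun i _ => hf i

lemma abs_prod_sub_prod_le {ι : Type} (S : Finset ι) (f g : ι → ℝ) (hf : ∀ i, |f i| ≤ 1)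
    (hg : ∀ i, |g i| ≤ 1) : |∏ i ∈ S, f i - ∏ i ∈ S, g i| ≤ ∑ i ∈ S, |f i - g i| := by
  classical
  induction S using Finset.induction_on with
  | empty => simp
  | insert a S ha ih =>
    rw [Finset.prod_insert ha, Finset.prod_insert ha, Finset.sum_insert ha]
    have e : f a * ∏ i ∈ S, f i - g a * ∏ i ∈ S, g i =
        (f a - g a) * ∏ i ∈ S, f i + g a * (∏ i ∈ S, f i - ∏ i ∈ S, g i) := by ring
    rw [e]
    refine (abs_add_le _ _).trans (add_le_add ?_ ?_)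
    · rw [abs_mul]
      exact mul_le_of_le_one_right (abs_nonneg _) (abs_prod_le_one S f hf)
    · rw [abs_mul]
      exact (mul_le_of_le_one_left (abs_nonneg _) (hg a)).trans ih

lemma prod_cos_sub_le (W : ℕ) (a y : ℕ → ℝ) (ρ : ℝ) (hy : ∀ r < W, |y r| ≤ ρ) :
    |∏ r ∈ range W, cos (a r + y r) - ∏ r ∈ range W, cos (a r)| ≤ W * ρ := by
  refine (abs_prod_sub_prod_le _ _ _ (fun _ => abs_cos_le_one _)
    (fun _ => abs_cos_le_one _)).trans ?_
  calc ∑ r ∈ range W, |cos (a r + y r) - cos (a r)| ≤ ∑ _r ∈ range W, ρ := by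
        refine Finset.sum_le_sum fun r hr => (abs_cos_sub_cos_le _ _).trans ?_
        simpa using hy r (Finset.mem_range.1 hr)
    _ = W * ρ := by simp

lemma exp_le_cos {x : ℝ} (hx : |x| ≤ 1) : exp (-x ^ 2) ≤ cos x := by
  have h1 : x ^ 2 ≤ 1 := by rw [← sq_abs]; exact pow_le_one₀ (abs_nonneg _) hx
  have h0 : 0 ≤ x ^ 2 := sq_nonneg x
  refine le_trans ?_ one_sub_sq_div_two_le_cos
  have h2 : x ^ 2 + 1 ≤ exp (x ^ 2) := add_one_le_exp _
  rw [exp_neg, inv_le_iff_one_le_mul₀ (exp_pos _)]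
  nlinarith

lemma exp_le_prod_cos {ι : Type} (S : Finset ι) (x : ι → ℝ) (hx : ∀ i ∈ S, |x i| ≤ 1) :
    exp (-∑ i ∈ S, x i ^ 2) ≤ ∏ i ∈ S, cos (x i) := by
  rw [← Finset.sum_neg_distrib, exp_sum]
  exact Finset.prod_le_prod (fun i _ => (exp_pos _).le) fun i hi => exp_le_cos (hx i hi)

lemma sum_geom_le {q : ℝ} (hq0 : 0 ≤ q) (hq1 : q < 1) (S : Finset ℕ) (d : ℕ → ℕ)
    (hd : Set.InjOn d S) : ∑ l ∈ S, q ^ d l ≤ (1 - q)⁻¹ := by
  classical
  rw [← Finset.sum_image (f := fun n => q ^ n) hd, ← tsum_geometric_of_lt_one hq0 hq1]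
  exact (summable_geometric_of_lt_one hq0 hq1).sum_le_tsum _ fun i _ => pow_nonneg hq0 i

lemma exists_rob (W : ℕ) (f : ℕ → ℝ) (hf : ∀ r, cos (f r) ≠ 0) :
    ∃ ρ c : ℝ, 0 < ρ ∧ 0 < c ∧ ∀ y : ℕ → ℝ, (∀ r, |y r| ≤ ρ) →
      c ≤ |∏ r ∈ range W, cos (f r + y r)| := by
  set P := |∏ r ∈ range W, cos (f r)| with hP
  have hP0 : 0 < P := abs_pos.2 (Finset.prod_ne_zero_iff.2 fun r _ => hf r)
  refine ⟨P / (2 * (W + 1)), P / 2, by positivity, by positivity, fun y hy => ?_⟩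
  have h1 := prod_cos_sub_le W f y _ fun r _ => hy r
  have h2 : (W : ℝ) * (P / (2 * (W + 1))) ≤ P / 2 := by
    rw [← mul_div_assoc, div_le_div_iff₀ (by positivity) (by positivity)]
    nlinarith
  have h3 := abs_sub_abs_le_abs_sub (∏ r ∈ range W, cos (f r))
    (∏ r ∈ range W, cos (f r + y r))
  rw [abs_sub_comm] at h3
  linarith

lemma norm_one_sub_pow_le {w : ℂ} (hw : ‖w‖ = 1) (t : ℕ) : ‖1 - w ^ t‖ ≤ t * ‖1 - w‖ := by
  induction t with
  | zero => simp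
  | succ t ih =>
    have e : 1 - w ^ (t + 1) = (1 - w ^ t) + w ^ t * (1 - w) := by ring
    rw [e]
    refine (norm_add_le _ _).trans ?_
    rw [norm_mul, norm_pow, hw]
    push_cast
    simp only [one_pow, one_mul]
    linarith

lemma exists_dirichlet {w : ℂ} (hw : ‖w‖ = 1) (M N : ℕ) (hN : 0 < N) :
    ∃ n t : ℕ, M < n ∧ n ≤ M + N ∧ 1 ≤ t ∧ t ≤ M + 1 ∧ n * t ≤ (M + 1) ^ 2 + N ∧
      ‖1 - w ^ n‖ ≤ 7 * t / N := by
  obtain ⟨k, hk0, hkN, hk⟩ := Real.exists_nat_abs_mul_sub_round_le (w.arg / (2 * π)) hN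
  have hNr : (0 : ℝ) < N := by exact_mod_cast hN
  have h1 : ‖1 - w ^ k‖ ≤ 7 / N := by
    set v : ℝ := k * (w.arg / (2 * π)) - round (k * (w.arg / (2 * π))) with hv
    have hwe : w = Complex.exp (w.arg * Complex.I) := by
      have := Complex.norm_mul_exp_arg_mul_I w
      rw [hw] at this
      simpa using this.symm
    have e : w ^ k = Complex.exp (Complex.I * ((2 * π * v : ℝ) : ℂ)) := by
      rw [hwe, ← Complex.exp_nat_mul, Complex.exp_eq_exp_iff_exists_int]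
      refine ⟨round (k * (w.arg / (2 * π))), ?_⟩
      have hpi : (π : ℂ) ≠ 0 := by exact_mod_cast pi_ne_zero
      rw [hv]
      push_cast
      field_simp
      ring
    rw [e, norm_sub_rev]
    refine norm_exp_I_mul_ofReal_sub_one_le.trans ?_
    rw [Real.norm_eq_abs, abs_mul, abs_of_pos (by positivity)]
    have h2 : |v| ≤ 1 / N := hk.trans (by gcongr; linarith)
    have h3 : 2 * π ≤ 7 := by linarith [pi_lt_d2]
    calc 2 * π * |v| ≤ 7 * (1 / N) := by gcongr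
      _ = 7 / N := by ring
  have hd := Nat.div_mul_le_self M k
  have hd2 := Nat.lt_div_mul_add (a := M) hk0
  have hd3 : M / k ≤ M := Nat.div_le_self M k
  refine ⟨k * (M / k + 1), M / k + 1, by nlinarith, by nlinarith, Nat.le_add_left _ _, by omega, ?_, ?_⟩
  · nlinarith [Nat.mul_le_mul hd hd3]
  · rw [pow_mul]
    refine (norm_one_sub_pow_le (by rw [norm_pow, hw, one_pow]) _).trans ?_
    calc _ ≤ ((M / k + 1 : ℕ) : ℝ) * (7 / N) := by gcongr
      _ = _ := by ring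

end Crest.Agent.R104
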