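import Mathlib
import Crest.Prelude.Def_BernoulliConv

/-!
Algebraic input for row 104: integer power sums of a quartic Salem number and its conjugates.
-/

set_option autoImplicit false

namespace Crest.Agent.R104

open Polynomial Crest.AnalysisR

lemma cos_ne_zero_of_isIntegral {x : ℝ} (hx : IsIntegral ℤ x) :
    Real.cos (2 * Real.pi * x) ≠ 0 := by
  intro h
  obtain ⟨k, hk⟩ := Real.cos_eq_zero_iff.1 h
  have hx' : x = algebraMap ℚ ℝ ((2 * k + 1) / 4) := by
    have hpi := Real.pi_pos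
    simp only [eq_ratCast]
    push_cast
    field_simp
    field_simp at hk
    linarith
  rw [hx', isIntegral_algebraMap_iff (algebraMap ℚ ℝ).injective,
    IsIntegrallyClosed.isIntegral_iff] at hx
  obtain ⟨j, hj⟩ := hx
  simp only [eq_intCast] at hj
  have : (4 * j : ℚ) = 2 * k + 1 := by rw [hj]; ring
  have : 4 * j = 2 * k + 1 := by exact_mod_cast this
  omega

lemma isIntegral_inv_of_salem {β : ℝ} (hβ : IsQuarticSalem β) : IsIntegral ℤ β⁻¹ := by
  obtain ⟨_, hint, _, hroot, _⟩ := hβ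
  rw [minpoly.isIntegrallyClosed_eq_field_fractions' ℚ hint, aeval_map_algebraMap] at hroot
  exact ⟨minpoly ℤ β, minpoly.monic hint, by simpa [aeval_def] using hroot⟩

lemma isIntegral_zpow_of_salem {β : ℝ} (hβ : IsQuarticSalem β) (r : ℤ) :
    IsIntegral ℤ (β ^ r) := by
  obtain ⟨n, rfl | rfl⟩ := r.eq_nat_or_neg
  · rw [zpow_natCast]; exact hβ.2.1.pow n
  · rw [zpow_neg, zpow_natCast, ← inv_pow]; exact (isIntegral_inv_of_salem hβ).pow n

lemma exists_conj_of_salem {β : ℝ} (hβ : IsQuarticSalem β) :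
    ∃ ζ : ℂ, ‖ζ‖ = 1 ∧ ∃ a b : ℤ, β + β⁻¹ + 2 * ζ.re = a ∧ (β + β⁻¹) * (2 * ζ.re) = b := by
  classical
  obtain ⟨h1, hint, hdeg, hroot, hall⟩ := hβ
  have hβ0 : β ≠ 0 := by linarith
  have hintQ : IsIntegral ℚ β := hint.tower_top
  have hirr : Irreducible (minpoly ℚ β) := minpoly.irreducible hintQ
  have hne : minpoly ℚ β ≠ 0 := hirr.ne_zero
  have hcard := card_rootSet_eq_natDegree (K := ℂ) hirr.separable (IsAlgClosed.splits _)
  rw [hdeg] at hcard
  have hreal : ∀ x : ℝ, aeval x (minpoly ℚ β) = 0 → aeval (x : ℂ) (minpoly ℚ β) = 0 := by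
    intro x hx
    have := aeval_algebraMap_apply ℂ x (minpoly ℚ β)
    rw [hx] at this
    simpa using this
  obtain ⟨z, hz, hz1, hz2⟩ : ∃ z : ℂ, aeval z (minpoly ℚ β) = 0 ∧ z ≠ (β : ℂ) ∧
      z ≠ ((β⁻¹ : ℝ) : ℂ) := by
    by_contra hcon
    push Not at hcon
    have hsub : ((minpoly ℚ β).rootSet ℂ).toFinset ⊆ {(β : ℂ), ((β⁻¹ : ℝ) : ℂ)} := by
      intro z hz
      rw [Set.mem_toFinset, mem_rootSet] at hz
      by_cases h : z = (β : ℂ)
      · simp [h]
      · simp [hcon z hz.2 h]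
    have h2 := Finset.card_le_card hsub
    rw [Set.toFinset_card, hcard] at h2
    have := Finset.card_le_two (a := (β : ℂ)) (b := ((β⁻¹ : ℝ) : ℂ))
    omega
  have hzn : ‖z‖ = 1 := by
    rcases hall z hz with h | h | h
    · exact absurd h hz1
    · exact absurd h hz2
    · exact h
  have hzc : aeval ((starRingEnd ℂ) z) (minpoly ℚ β) = 0 := by
    have := aeval_algHom_apply ((Complex.conjAe.toAlgHom).restrictScalars ℚ) z (minpoly ℚ β)
    rw [hz] at this
    simpa using this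
  have hrat : ∀ q : ℚ, aeval (q : ℂ) (minpoly ℚ β) ≠ 0 := by
    intro q hq
    have h2 := aeval_algebraMap_apply ℂ q (minpoly ℚ β)
    simp only [eq_ratCast] at h2
    rw [hq] at h2
    have h3 : aeval q (minpoly ℚ β) = 0 := by exact_mod_cast h2.symm
    have h4 : (minpoly ℚ β).IsRoot q := by simpa [aeval_def] using h3
    have := degree_eq_one_of_irreducible_of_root hirr h4
    have h5 := natDegree_eq_of_degree_eq_some (n := 1) this
    omega
  have hzim : z.im ≠ 0 := by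
    intro him
    have hz' : z = (z.re : ℂ) := by apply Complex.ext <;> simp [him]
    have habs : |z.re| = 1 := by rw [hz'] at hzn; simpa using hzn
    rcases abs_eq (zero_le_one) |>.1 habs with h | h
    · exact hrat 1 (by rw [hz', h] at hz; simpa using hz)
    · exact hrat (-1) (by rw [hz', h] at hz; simpa using hz)
  have hzz : z * (starRingEnd ℂ) z = 1 := by
    rw [Complex.mul_conj, Complex.normSq_eq_norm_sq, hzn]; simp
  have hzs : z + (starRingEnd ℂ) z = ((2 * z.re : ℝ) : ℂ) := Complex.add_conj z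
  set y : ℂ := ((β + β⁻¹ : ℝ) : ℂ) with hy
  set w : ℂ := ((2 * z.re : ℝ) : ℂ) with hw
  set q : ℂ[X] := X ^ 4 - C (y + w) * X ^ 3 + C (y * w + 2) * X ^ 2 - C (y + w) * X + 1 with hq
  have hqe : ∀ x : ℂ, q.eval x = (x ^ 2 - y * x + 1) * (x ^ 2 - w * x + 1) := by
    intro x; simp only [hq, eval_add, eval_sub, eval_mul, eval_pow, eval_X, eval_C, eval_one]; ring
  have hqm : q.Monic := by rw [hq]; monicity!
  have hqd : q.degree = 4 := by rw [hq]; compute_degree!
  set P : ℂ[X] := (minpoly ℚ β).map (algebraMap ℚ ℂ) with hP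
  have hPm : P.Monic := (minpoly.monic hintQ).map _
  have hPd : P.degree = 4 := by
    rw [hP, degree_map, degree_eq_natDegree hne, hdeg]; rfl
  have hPe : ∀ x : ℂ, P.eval x = aeval x (minpoly ℚ β) := by
    intro x; rw [hP, eval_map_algebraMap]
  have hβC : (β : ℂ) ≠ 0 := by exact_mod_cast hβ0
  have hcard4 : ({(β : ℂ), ((β⁻¹ : ℝ) : ℂ), z, (starRingEnd ℂ) z} : Finset ℂ).card = 4 := by
    have e1 : (β : ℂ) ≠ ((β⁻¹ : ℝ) : ℂ) := by
      intro h
      have h' : β = β⁻¹ := by exact_mod_cast h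
      have : β⁻¹ < 1 := inv_lt_one_of_one_lt₀ h1
      linarith
    have e2 : ∀ x : ℝ, (x : ℂ) ≠ z := fun x h => hzim (by rw [← h]; simp)
    have e3 : ∀ x : ℝ, (x : ℂ) ≠ (starRingEnd ℂ) z := fun x h => hzim (by
      have := congrArg Complex.im h
      simp at this
      linarith)
    have e4 : z ≠ (starRingEnd ℂ) z := fun h => hzim (by
      have := congrArg Complex.im h
      simp at this
      linarith)
    rw [Finset.card_insert_of_notMem (by simp only [Finset.mem_insert, Finset.mem_singleton]; push Not; exact ⟨e1, e2 _, e3 _⟩),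
      Finset.card_insert_of_notMem (by simp only [Finset.mem_insert, Finset.mem_singleton]; push Not; exact ⟨e2 _, e3 _⟩),
      Finset.card_pair e4]
  have hPq : P = q := by
    refine Polynomial.eq_of_degree_sub_lt_of_eval_finset_eq
      ({(β : ℂ), ((β⁻¹ : ℝ) : ℂ), z, (starRingEnd ℂ) z} : Finset ℂ) ?_ ?_
    · rw [hcard4]
      have := degree_sub_lt_left (hPd.trans hqd.symm) hPm.ne_zero
        (by rw [hPm.leadingCoeff, hqm.leadingCoeff])
      rw [hPd] at this
      exact_mod_cast this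
    · intro x hx
      simp only [Finset.mem_insert, Finset.mem_singleton] at hx
      rw [hPe, hqe]
      rcases hx with rfl | rfl | rfl | rfl
      · rw [hreal β (minpoly.aeval ℚ β), hy]
        have : (β : ℂ) ^ 2 - ((β + β⁻¹ : ℝ) : ℂ) * β + 1 = 0 := by
          push_cast; field_simp; ring
        rw [this, zero_mul]
      · rw [hreal _ hroot, hy]
        have : ((β⁻¹ : ℝ) : ℂ) ^ 2 - ((β + β⁻¹ : ℝ) : ℂ) * ((β⁻¹ : ℝ) : ℂ) + 1 = 0 := by
          push_cast; field_simp; ring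
        rw [this, zero_mul]
      · rw [hz, ← hzs]
        have : x ^ 2 - (x + (starRingEnd ℂ) x) * x + 1 = 0 := by linear_combination -hzz
        rw [this, mul_zero]
      · rw [hzc, ← hzs]
        have : (starRingEnd ℂ) z ^ 2 - (z + (starRingEnd ℂ) z) * (starRingEnd ℂ) z + 1 = 0 := by
          linear_combination -hzz
        rw [this, mul_zero]
  have hco : ∀ n, ∃ a : ℤ, q.coeff n = a := by
    intro n
    refine ⟨(minpoly ℤ β).coeff n, ?_⟩
    rw [← hPq, hP, minpoly.isIntegrallyClosed_eq_field_fractions' ℚ hint, coeff_map, coeff_map]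
    simp
  obtain ⟨a, ha⟩ := hco 3
  obtain ⟨b, hb⟩ := hco 2
  simp only [hq, coeff_add, coeff_sub, coeff_C_mul, coeff_X_pow, coeff_X, coeff_one] at ha hb
  norm_num at ha hb
  refine ⟨z, hzn, -a, b - 2, ?_, ?_⟩
  · have : y + w = -a := by linear_combination -ha
    rw [hy, hw] at this
    exact_mod_cast this
  · have : y * w = b - 2 := by linear_combination hb
    rw [hy, hw] at this
    exact_mod_cast this

lemma exists_power_sums {β : ℝ} (hβ : IsQuarticSalem β) :
    ∃ ζ : ℂ, ‖ζ‖ = 1 ∧ ∀ r : ℤ, ∃ m : ℤ, β ^ r + β ^ (-r) + 2 * (ζ ^ r).re = m := by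
  obtain ⟨ζ, hζ, a, b, ha, hb⟩ := exists_conj_of_salem hβ
  have hβ0 : β ≠ 0 := by linarith [hβ.1]
  have hζ0 : ζ ≠ 0 := by intro h; simp [h] at hζ
  have hzz : ζ * (starRingEnd ℂ) ζ = 1 := by
    rw [Complex.mul_conj, Complex.normSq_eq_norm_sq, hζ]; simp
  set y := β + β⁻¹ with hy
  set w := 2 * ζ.re with hw
  set A : ℕ → ℝ := fun n => β ^ n + β⁻¹ ^ n with hA
  set B : ℕ → ℝ := fun n => 2 * (ζ ^ n).re with hB
  have hA2 : ∀ n, A (n + 2) = y * A (n + 1) - A n := by
    intro n; simp only [hA, hy, pow_succ]; field_simp; ring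
  have hB2 : ∀ n, B (n + 2) = w * B (n + 1) - B n := by
    intro n
    have : ζ ^ (n + 2) = (w : ℂ) * ζ ^ (n + 1) - ζ ^ n := by
      rw [hw, ← Complex.add_conj]
      linear_combination (-ζ ^ n) * hzz
    simp only [hB, this, Complex.sub_re, Complex.re_ofReal_mul]
    ring
  have key : ∀ n, (∃ m : ℤ, A n + B n = m) ∧ (∃ m : ℤ, y * A n + w * B n = m) ∧
      (∃ m : ℤ, A (n + 1) + B (n + 1) = m) ∧ (∃ m : ℤ, y * A (n + 1) + w * B (n + 1) = m) := by
    intro n
    induction n with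
    | zero =>
      refine ⟨⟨4, ?_⟩, ⟨2 * a, ?_⟩, ⟨a, ?_⟩, ⟨a ^ 2 - 2 * b, ?_⟩⟩
      · simp [hA, hB]; norm_num
      · simp only [hA, hB, pow_zero, Complex.one_re]; push_cast; linarith
      · simp only [hA, hB, zero_add, pow_one]; linarith
      · simp only [hA, hB, zero_add, pow_one]; push_cast
        rw [← ha, ← hb, ← hy, ← hw]; ring
    | succ n ih =>
      obtain ⟨⟨m1, h1⟩, ⟨m2, h2⟩, ⟨m3, h3⟩, ⟨m4, h4⟩⟩ := ih
      refine ⟨⟨m3, h3⟩, ⟨m4, h4⟩, ⟨m4 - m1, ?_⟩, ⟨a * m4 - b * m3 - m2, ?_⟩⟩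
      · rw [hA2, hB2]; push_cast; linarith
      · rw [hA2, hB2]; push_cast
        rw [← ha, ← hb, ← h2, ← h3, ← h4]; ring
  refine ⟨ζ, hζ, fun r => ?_⟩
  obtain ⟨n, rfl | rfl⟩ := r.eq_nat_or_neg
  · obtain ⟨m, hm⟩ := (key n).1
    exact ⟨m, by simpa [hA, hB] using hm⟩
  · obtain ⟨m, hm⟩ := (key n).1
    refine ⟨m, ?_⟩
    have : ζ ^ (-(n : ℤ)) = (starRingEnd ℂ) (ζ ^ n) := by
      rw [zpow_neg, zpow_natCast, map_pow, ← inv_pow]
      congr 1
      exact (eq_inv_of_mul_eq_one_right hzz).symm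
    rw [this, Complex.conj_re, ← hm]
    simp [hA, hB]; ring

end Crest.Agent.R104
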