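import Crest.Agent.R104.State
import Crest.Agent.R104.Salem

/-!
Iterating the doubling step until the window length times the central size is far below the
square of the cosine product.
-/

set_option autoImplicit false

namespace Crest.Agent.R104

open Finset Real Filter Topology Crest.AnalysisR

lemma St.mono_c {β : ℝ} {ζ : ℂ} {τ u s : ℝ} {z : ℂ} {W : ℕ} {δ ρ c c' : ℝ}
    (h : St β ζ τ u s z W δ ρ c) (h0 : 0 < c') (hc : c' ≤ c) : St β ζ τ u s z W δ ρ c' :=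
  ⟨h.int, h.hu, h.hs, h.hz, h.big, h0, fun y hy => hc.trans (h.roba y hy),
    fun y hy => hc.trans (h.robb y hy)⟩

lemma St.dstep {β : ℝ} {ζ : ℂ} {τ u s : ℝ} {z : ℂ} {W : ℕ} {δ ρ c : ℝ}
    (h : St β ζ τ u s z W δ ρ c) (hβ : 1 < β) (hζ : ‖ζ‖ = 1) (hδ : 0 < δ)
    (h4 : 2 * τ + 3 * δ ≤ 1) (h5 : 6 * τ ^ 2 * (1 - β⁻¹)⁻¹ ≤ 1) (N G : ℕ)
    (hN : (W + G + 1) ^ 2 ≤ N) (hG : β⁻¹ ^ G ≤ δ / N)
    (hρ : 42 * δ * (W + G + 1) / N ≤ ρ) (hδ2 : 42 * δ * (W + G + 1) / N ≤ δ) :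
    ∃ u' s' : ℝ, ∃ z' : ℂ, ∃ W' : ℕ, ∃ δ' : ℝ,
      St β ζ τ u' s' z' W' δ' δ' (c ^ 2 * exp (-(1 + 54 * N * δ ^ 2))) ∧ 0 < δ' ∧
      δ' ≤ 7 * δ * (W + G + 1) / N ∧ W' * δ' ≤ 28 * δ ∧ W' ≤ 4 * N ∧ β⁻¹ ^ W' ≤ δ' := by
  have hN0 : 0 < N := lt_of_lt_of_le (by positivity) hN
  have hNr : (1 : ℝ) ≤ N := by exact_mod_cast hN0
  have hq0 : 0 < β⁻¹ := inv_pos.2 (by linarith)
  have hq1 : β⁻¹ < 1 := inv_lt_one_of_one_lt₀ hβ
  have hτ : 0 ≤ τ := (abs_nonneg _).trans h.hu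
  obtain ⟨n, t, hn1, hn2, ht1, ht2, hnt, hd⟩ :=
    exists_dirichlet (w := ζ⁻¹) (by rw [norm_inv, hζ, inv_one]) (W + G) N hN0
  obtain ⟨p, rfl⟩ : ∃ p, n = W + p := ⟨n - W, by omega⟩
  have hMN : W + G + 1 ≤ N := le_trans (Nat.le_self_pow two_ne_zero _) hN
  have ht1r : (1 : ℝ) ≤ t := by exact_mod_cast ht1
  have ht2r : (t : ℝ) ≤ W + G + 1 := by exact_mod_cast ht2
  set δ' : ℝ := 7 * δ * t / N with hδ'
  have hδ'0 : 0 < δ' := by positivity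
  have hle : δ' ≤ 7 * δ * (W + G + 1) / N := by rw [hδ']; gcongr
  have hle2 : 42 * δ * (W + G + 1) / N = 6 * (7 * δ * (W + G + 1) / N) := by ring
  have hge : δ / N ≤ δ' := by
    rw [hδ']; gcongr; nlinarith
  have hqp : ∀ e, G ≤ e → β⁻¹ ^ e ≤ δ / N :=
    fun e he => (pow_le_pow_of_le_one hq0.le hq1.le he).trans hG
  have hst := h.step hβ hζ p δ' hδ'0.le
    (by
      have h1 := hqp p (by omega)
      have h2 : τ * β⁻¹ ^ p ≤ β⁻¹ ^ p :=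
        mul_le_of_le_one_left (pow_pos hq0 _).le (by linarith)
      linarith)
    (by
      rw [norm_mul]
      calc _ ≤ δ * (7 * t / N) := by gcongr; exact h.hz
        _ = δ' := by rw [hδ']; ring)
    (by linarith) h4 h5
    (by
      have h1 := hqp (W + p) (by omega)
      have h2 : δ / N ≤ δ := div_le_self hδ.le hNr
      rw [inv_pow, inv_le_comm₀ (by positivity) (by positivity)] at h1
      refine le_trans ?_ h1
      rw [le_inv_comm₀ (by norm_num) (by positivity)]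
      linarith)
  refine ⟨_, _, _, _, δ', hst.mono_c (mul_pos (pow_pos h.cpos 2) (exp_pos _)) ?_, hδ'0, hle,
    ?_, by omega, (hqp _ (by omega)).trans hge⟩
  · have hp : (p : ℝ) ≤ 2 * N := by exact_mod_cast (by omega : p ≤ 2 * N)
    refine mul_le_mul_of_nonneg_left (exp_le_exp.2 ?_) (sq_nonneg c)
    nlinarith [sq_nonneg δ]
  · have h1 : ((W + p + W : ℕ) : ℝ) * t ≤ 4 * N := by
      have : (W + p + W) * t ≤ 4 * N := by nlinarith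
      exact_mod_cast this
    rw [hδ']
    calc ((W + p + W : ℕ) : ℝ) * (7 * δ * t / N) = 7 * δ * (((W + p + W : ℕ) : ℝ) * t) / N := by
          ring
      _ ≤ 7 * δ * (4 * N) / N := by gcongr
      _ = 28 * δ := by field_simp; ring

/-- The invariant of the regular steps. -/
def Inv (β : ℝ) (ζ : ℂ) (τ : ℝ) (W : ℕ) (δ c : ℝ) : Prop :=
  (∃ u s : ℝ, ∃ z : ℂ, St β ζ τ u s z W δ δ c) ∧ 0 < δ ∧ δ ≤ 1 / 10 ^ 15 ∧ W * δ ≤ 1 / 8 ∧
    β⁻¹ ^ W ≤ δ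

lemma Inv.step {β : ℝ} {ζ : ℂ} {τ : ℝ} {W : ℕ} {δ c : ℝ} (h : Inv β ζ τ W δ c) (hβ : 1 < β)
    (hζ : ‖ζ‖ = 1) (h4 : τ ≤ 1 / 4) (h5 : 6 * τ ^ 2 * (1 - β⁻¹)⁻¹ ≤ 1) :
    ∃ W' : ℕ, ∃ δ' : ℝ, Inv β ζ τ W' δ' (c ^ 2 * exp (-55)) ∧ δ' ≤ 70 * W * δ ^ 3 ∧
      (W' : ℝ) ^ 4 * δ' ^ 3 ≤ 1 := by
  obtain ⟨⟨u, s, z, hst⟩, hδ0, hδ1, hWδ, hqW⟩ := h
  have hq0 : 0 < β⁻¹ := inv_pos.2 (by linarith)
  have hW : 1 ≤ W := by
    rcases Nat.eq_zero_or_pos W with h | h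
    · rw [h, pow_zero] at hqW; norm_num at hδ1; linarith
    · exact h
  have hWr : (1 : ℝ) ≤ W := by exact_mod_cast hW
  set N := ⌊(δ ^ 2)⁻¹⌋₊ with hN
  have hN1 : (N : ℝ) * δ ^ 2 ≤ 1 := by
    have := Nat.floor_le (a := (δ ^ 2)⁻¹) (by positivity)
    rw [← hN] at this
    calc (N : ℝ) * δ ^ 2 ≤ (δ ^ 2)⁻¹ * δ ^ 2 := by gcongr
      _ = 1 := inv_mul_cancel₀ (by positivity)
  have hδs : δ ^ 2 ≤ 1 / 1000 := by nlinarith
  have hN2 : 1 / 2 ≤ (N : ℝ) * δ ^ 2 := by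
    have h1 := Nat.lt_floor_add_one (δ ^ 2)⁻¹
    rw [← hN, inv_lt_iff_one_lt_mul₀ (by positivity)] at h1
    nlinarith
  have hN0 : (0 : ℝ) < N := by
    by_contra hcon
    have : (N : ℝ) * δ ^ 2 ≤ 0 := mul_nonpos_of_nonpos_of_nonneg (not_lt.1 hcon) (sq_nonneg _)
    linarith
  have hdiv : ∀ a : ℝ, 0 ≤ a → a / N ≤ 2 * a * δ ^ 2 := by
    intro a ha
    rw [div_le_iff₀ hN0]
    nlinarith
  have hM : ((W : ℝ) + ((3 * W : ℕ) : ℝ) + 1) ≤ 5 * W := by push_cast; linarith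
  have hM0 : 0 ≤ ((W : ℝ) + ((3 * W : ℕ) : ℝ) + 1) := by positivity
  have h42 : 42 * δ * ((W : ℝ) + ((3 * W : ℕ) : ℝ) + 1) / N ≤ δ := by
    refine (hdiv _ (by positivity)).trans ?_
    calc 2 * (42 * δ * ((W : ℝ) + ((3 * W : ℕ) : ℝ) + 1)) * δ ^ 2
        ≤ 2 * (42 * δ * (5 * W)) * δ ^ 2 := by gcongr
      _ = 420 * (W * δ) * δ ^ 2 := by ring
      _ ≤ 420 * (1 / 8) * δ ^ 2 := by gcongr
      _ ≤ δ := by nlinarith
  obtain ⟨u', s', z', W', δ', hst', h0, h1, h2, h3, h6⟩ := hst.dstep hβ hζ hδ0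
    (by norm_num at hδ1; linarith) h5 N (3 * W)
    (by
      have h7 : ((W : ℝ) + ((3 * W : ℕ) : ℝ) + 1) ^ 2 * δ ^ 2 ≤ N * δ ^ 2 := by
        calc _ ≤ (5 * (W : ℝ)) ^ 2 * δ ^ 2 := by gcongr
          _ = 25 * (W * δ) ^ 2 := by ring
          _ ≤ 25 * (1 / 8) ^ 2 := by gcongr
          _ ≤ _ := by linarith
      have h8 := le_of_mul_le_mul_right h7 (by positivity)
      exact_mod_cast h8)
    (by
      rw [le_div_iff₀ hN0, pow_mul']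
      calc (β⁻¹ ^ W) ^ 3 * N ≤ δ ^ 3 * N := by gcongr
        _ = δ * (N * δ ^ 2) := by ring
        _ ≤ δ := mul_le_of_le_one_right hδ0.le hN1)
    h42 h42
  have hδ' : δ' ≤ 70 * W * δ ^ 3 := by
    refine h1.trans ((hdiv _ (by positivity)).trans ?_)
    calc 2 * (7 * δ * ((W : ℝ) + ((3 * W : ℕ) : ℝ) + 1)) * δ ^ 2
        ≤ 2 * (7 * δ * (5 * W)) * δ ^ 2 := by gcongr
      _ = _ := by ring
  refine ⟨W', δ', ⟨⟨u', s', z', hst'.mono_c (mul_pos (pow_pos hst.cpos 2) (exp_pos _)) ?_⟩, h0,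
    ?_, ?_, h6⟩, hδ', ?_⟩
  · gcongr; nlinarith
  · have : 42 * δ * ((W : ℝ) + ((3 * W : ℕ) : ℝ) + 1) / N =
        6 * (7 * δ * ((W : ℝ) + ((3 * W : ℕ) : ℝ) + 1) / N) := by ring
    linarith
  · norm_num at hδ1; linarith
  · have h7 : (W' : ℝ) ≤ 4 * N := by exact_mod_cast h3
    calc (W' : ℝ) ^ 4 * δ' ^ 3 = (W' * δ') ^ 3 * W' := by ring
      _ ≤ (28 * δ) ^ 3 * (4 * N) := by gcongr
      _ = 87808 * δ * (N * δ ^ 2) := by ring
      _ ≤ 87808 * δ * 1 := by gcongr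
      _ ≤ 1 := by norm_num at hδ1; linarith

lemma exists_base {β : ℝ} (hβ : IsQuarticSalem β) {ζ : ℂ} (hζ : ‖ζ‖ = 1)
    (hp : ∀ r : ℤ, ∃ m : ℤ, β ^ r + β ^ (-r) + 2 * (ζ ^ r).re = m) {τ δ : ℝ} (hτ : 0 < τ)
    (hδ : 0 < δ) : ∃ u s : ℝ, ∃ z : ℂ, ∃ W : ℕ, ∃ ρ c : ℝ, 0 < ρ ∧ St β ζ τ u s z W δ ρ c := by
  have h1 := hβ.1
  have hβ0 : 0 < β := by linarith
  have hζ0 : ζ ≠ 0 := by intro h; simp [h] at hζ
  have hq0 : 0 < β⁻¹ := inv_pos.2 hβ0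
  have hq1 : β⁻¹ < 1 := inv_lt_one_of_one_lt₀ h1
  have hqβn : ∀ n : ℕ, β⁻¹ ^ n * β ^ n = 1 := fun n => by
    rw [← mul_pow, inv_mul_cancel₀ hβ0.ne', one_pow]
  have h7 : 2 * π ≤ 7 := by linarith [pi_lt_d2]
  have h6 : 1 ≤ 2 * π := by linarith [pi_gt_three]
  have i0 : Intg β ζ (2 * π) (2 * π) ((2 * π : ℝ) : ℂ) := by
    intro r
    obtain ⟨m, hm⟩ := hp r
    refine ⟨m, ?_⟩
    rw [← hm, Complex.re_ofReal_mul]; ring
  obtain ⟨N, hN⟩ := exists_nat_gt (49 / δ)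
  have hN0 : (0 : ℝ) < N := lt_trans (by positivity) hN
  obtain ⟨n, t, hn1, -, -, ht2, -, hd⟩ :=
    exists_dirichlet (w := ζ⁻¹) (by rw [norm_inv, hζ, inv_one]) 0 N (by exact_mod_cast hN0)
  obtain ⟨g, hg⟩ := exists_pow_lt_of_lt_one (x := min (τ / 7) (β - 1))
    (lt_min (by positivity) (by linarith)) hq1
  have hg1 : β⁻¹ ^ g ≤ τ / 7 := hg.le.trans (min_le_left _ _)
  have hg2 : β⁻¹ ^ g ≤ β - 1 := hg.le.trans (min_le_right _ _)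
  have i1 := i0.shift hβ0.ne' hζ0 g
  have i2 := i1.sub (i1.shift hβ0.ne' hζ0 n)
  have hI : ∀ k : ℕ, IsIntegral ℤ (β ^ k) := fun k => hβ.2.1.pow k
  have hI' : ∀ k : ℕ, IsIntegral ℤ (β⁻¹ ^ k) := fun k => (isIntegral_inv_of_salem hβ).pow k
  obtain ⟨ρ1, c1, hρ1, hc1, r1⟩ := exists_rob (g + g + n)
    (fun r => (2 * π * β⁻¹ ^ g - 2 * π * β⁻¹ ^ g * β⁻¹ ^ n) * β ^ r) fun r => by
      have := cos_ne_zero_of_isIntegral (((hI' g).sub ((hI' g).mul (hI' n))).mul (hI r))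
      convert this using 2; ring
  obtain ⟨ρ2, c2, hρ2, hc2, r2⟩ := exists_rob (g + g + n)
    (fun r => (2 * π * β ^ g - 2 * π * β ^ g * β ^ n) * β⁻¹ ^ r) fun r => by
      have := cos_ne_zero_of_isIntegral (((hI g).sub ((hI g).mul (hI n))).mul (hI' r))
      convert this using 2; ring
  have hqn : β⁻¹ ^ n ≤ 1 := pow_le_one₀ hq0.le hq1.le
  have hβn : β ≤ β ^ n := le_self_pow₀ h1.le (by omega)
  refine ⟨_, _, _, g + g + n, min ρ1 ρ2, min c1 c2, lt_min hρ1 hρ2, i2, ?_, ?_, ?_, ?_,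
    lt_min hc1 hc2,
    fun y hy => (min_le_left _ _).trans (r1 y fun r => (hy r).trans (min_le_left _ _)),
    fun y hy => (min_le_right _ _).trans (r2 y fun r => (hy r).trans (min_le_right _ _))⟩
  · rw [← mul_one_sub, abs_of_nonneg (mul_nonneg (by positivity) (by linarith))]
    calc 2 * π * β⁻¹ ^ g * (1 - β⁻¹ ^ n) ≤ 7 * (τ / 7) * 1 := by
          have := pow_pos hq0 n
          have : 0 ≤ 1 - β⁻¹ ^ n := by linarith
          gcongr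
          linarith
      _ = τ := by ring
  · rw [← mul_one_sub, abs_mul, abs_of_nonneg (by positivity), abs_sub_comm,
      abs_of_nonneg (by linarith)]
    calc 2 * π * β ^ g * (β ^ n - 1) ≤ 7 * β ^ g * β ^ n := by
          gcongr
          · linarith
          · linarith
      _ = 7 * β⁻¹ ^ g * β ^ (g + g + n) := by
          rw [pow_add, pow_add]; linear_combination (-(7 * β ^ g * β ^ n)) * hqβn g
      _ ≤ 7 * (τ / 7) * β ^ (g + g + n) := by gcongr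
      _ = _ := by ring
  · rw [← mul_one_sub, norm_mul, norm_mul, norm_pow, norm_inv, hζ, inv_one, one_pow, mul_one,
      Complex.norm_real, Real.norm_eq_abs, abs_of_pos (by positivity)]
    have ht : (t : ℝ) ≤ 1 := by exact_mod_cast ht2
    rw [div_lt_iff₀ hδ] at hN
    calc 2 * π * ‖1 - ζ⁻¹ ^ n‖ ≤ 7 * (7 * 1 / N) := by
          gcongr
          exact hd.trans (by gcongr)
      _ ≤ δ := by
          rw [← mul_div_assoc, div_le_iff₀ hN0]; linarith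
  · rw [← mul_one_sub, abs_of_nonneg (mul_nonneg (by positivity) (by linarith))]
    have e : 2 * π * β⁻¹ ^ g * (1 - β⁻¹ ^ n) * β ^ (g + g + n) =
        2 * π * (β ^ g * (β ^ n - 1)) := by
      rw [pow_add, pow_add]
      linear_combination (2 * π * (1 - β⁻¹ ^ n) * β ^ g * β ^ n) * hqβn g -
        (2 * π * β ^ g) * hqβn n
    rw [e]
    have h8 : 1 ≤ β ^ g * (β ^ n - 1) := by
      calc (1 : ℝ) = β ^ g * β⁻¹ ^ g := by rw [mul_comm, hqβn]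
        _ ≤ β ^ g * (β ^ n - 1) := by gcongr; linarith
    nlinarith

lemma exists_inv {β : ℝ} (hβ : IsQuarticSalem β) {ζ : ℂ} (hζ : ‖ζ‖ = 1)
    (hp : ∀ r : ℤ, ∃ m : ℤ, β ^ r + β ^ (-r) + 2 * (ζ ^ r).re = m) {τ : ℝ} (hτ : 0 < τ)
    (h4 : τ ≤ 1 / 4) (h5 : 6 * τ ^ 2 * (1 - β⁻¹)⁻¹ ≤ 1) :
    ∃ W : ℕ, ∃ δ c : ℝ, Inv β ζ τ W δ c := by
  set δ : ℝ := 1 / 10 ^ 15 with hδ
  have hδ0 : 0 < δ := by positivity
  obtain ⟨u, s, z, W, ρ, c, hρ, hst⟩ := exists_base hβ hζ hp hτ hδ0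
  have hq0 : 0 < β⁻¹ := inv_pos.2 (by linarith [hβ.1])
  have hq1 : β⁻¹ < 1 := inv_lt_one_of_one_lt₀ hβ.1
  have t1 := ((tendsto_pow_const_mul_const_pow_of_abs_lt_one 2
    (r := β⁻¹) (by rwa [abs_of_pos hq0])).comp (tendsto_add_atTop_nat (W + 1))).div_const
      (β⁻¹ ^ (W + 1))
  rw [zero_div] at t1
  have t2 := ((tendsto_const_div_atTop_nhds_zero_nat (42 * δ)).comp
    (tendsto_add_atTop_nat (W + 1)))
  obtain ⟨G, hG1, hG2⟩ := ((t1.eventually (gt_mem_nhds hδ0)).and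
    (t2.eventually (gt_mem_nhds (lt_min hρ hδ0)))).exists
  simp only [Function.comp] at hG1 hG2
  have hM : (0 : ℝ) < (W : ℝ) + G + 1 := by positivity
  have e : 42 * δ * ((W : ℝ) + G + 1) / (((W + G + 1) ^ 2 : ℕ) : ℝ) =
      42 * δ / ((G + (W + 1) : ℕ) : ℝ) := by
    push_cast
    rw [show (G : ℝ) + (W + 1) = W + G + 1 by ring]
    field_simp
  obtain ⟨u', s', z', W', δ', hst', h0, h1, h2, -, h6⟩ := hst.dstep hβ.1 hζ hδ0
    (by rw [hδ]; norm_num; linarith) h5 ((W + G + 1) ^ 2) G le_rfl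
    (by
      rw [le_div_iff₀ (by positivity)]
      refine le_trans (le_of_eq ?_) hG1.le
      push_cast
      rw [pow_add β⁻¹ G (W + 1), ← mul_assoc, mul_div_cancel_right₀ _ (pow_pos hq0 _).ne']
      ring)
    (by rw [e]; exact hG2.le.trans (min_le_left _ _))
    (by rw [e]; exact hG2.le.trans (min_le_right _ _))
  refine ⟨W', δ', _, ⟨u', s', z', hst'⟩, h0, ?_, ?_, h6⟩
  · have h7 := hG2.le.trans (min_le_right _ _)
    rw [← e] at h7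
    have : 42 * δ * ((W : ℝ) + G + 1) / (((W + G + 1) ^ 2 : ℕ) : ℝ) =
        6 * (7 * δ * ((W : ℝ) + G + 1) / (((W + G + 1) ^ 2 : ℕ) : ℝ)) := by ring
    linarith
  · rw [hδ] at h2; norm_num at h2 ⊢; linarith

lemma exists_final {β : ℝ} (hβ : IsQuarticSalem β) {ζ : ℂ} (hζ : ‖ζ‖ = 1)
    (hp : ∀ r : ℤ, ∃ m : ℤ, β ^ r + β ^ (-r) + 2 * (ζ ^ r).re = m) {τ : ℝ} (hτ : 0 < τ)
    (h4 : τ ≤ 1 / 4) (h5 : 6 * τ ^ 2 * (1 - β⁻¹)⁻¹ ≤ 1) {η : ℝ} (hη : 0 < η) :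
    ∃ W : ℕ, ∃ δ c : ℝ, Inv β ζ τ W δ c ∧ W * δ ≤ η * c ^ 2 := by
  obtain ⟨W1, δ1, c1, h1⟩ := exists_inv hβ hζ hp hτ h4 h5
  obtain ⟨W2, δ2, h2, -, h2'⟩ := h1.step hβ.1 hζ h4 h5
  set c2 := c1 ^ 2 * exp (-55) with hc2
  have hc20 : 0 < c2 := by obtain ⟨⟨_, _, _, h⟩, _⟩ := h2; exact h.cpos
  have hδ2 : 0 < δ2 := h2.2.1
  set b := -log δ2 with hb
  set a := 55 - log c2 with ha
  have hb0 : 0 < b := by
    have := h2.2.2.1
    rw [hb, neg_pos]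
    exact log_neg hδ2 (by norm_num at this; linarith)
  have key : ∀ j : ℕ, ∃ W : ℕ, ∃ δ : ℝ, Inv β ζ τ W δ (exp (55 - 2 ^ j * a)) ∧
      (W : ℝ) ^ 4 * δ ^ 3 ≤ 1 ∧ δ ≤ exp (-((17 / 8) ^ j * b)) := by
    intro j
    induction j with
    | zero =>
      refine ⟨W2, δ2, ?_, h2', ?_⟩
      · convert h2 using 1
        rw [ha]; simp [exp_log hc20]
      · rw [hb]; simp [exp_log hδ2]
    | succ j ih =>
      obtain ⟨W, δ, hI, hs, hδ⟩ := ih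
      obtain ⟨W', δ', hI', h3, h3'⟩ := hI.step hβ.1 hζ h4 h5
      refine ⟨W', δ', ?_, h3', ?_⟩
      · convert hI' using 1
        rw [← exp_nat_mul, ← exp_add]; congr 1; push_cast; ring
      · have hδ0 := hI.2.1
        have hδ1 := hI.2.2.1
        have hδ'0 := hI'.2.1
        refine le_of_pow_le_pow_left₀ (n := 8) (by norm_num) (exp_pos _).le ?_
        calc δ' ^ 8 ≤ (70 * W * δ ^ 3) ^ 8 := by gcongr
          _ = 70 ^ 8 * δ * ((W : ℝ) ^ 4 * δ ^ 3) ^ 2 * δ ^ 17 := by ring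
          _ ≤ 70 ^ 8 * (1 / 10 ^ 15) * 1 ^ 2 * δ ^ 17 := by gcongr
          _ ≤ 1 * δ ^ 17 := by gcongr; norm_num
          _ ≤ 1 * exp (-((17 / 8) ^ j * b)) ^ 17 := by gcongr
          _ = _ := by
            rw [one_mul, ← exp_nat_mul, ← exp_nat_mul]; congr 1; push_cast; ring
  obtain ⟨j, hj⟩ := pow_unbounded_of_one_lt ((8 * |a| + |4 * log η|) / b)
    (by norm_num : (1 : ℝ) < 17 / 16)
  rw [div_lt_iff₀ hb0] at hj
  obtain ⟨W, δ, hI, hs, hδ⟩ := key j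
  refine ⟨W, δ, _, hI, ?_⟩
  have hδ0 := hI.2.1
  refine le_of_pow_le_pow_left₀ (n := 4) (by norm_num) (by positivity) ?_
  calc ((W : ℝ) * δ) ^ 4 = (W : ℝ) ^ 4 * δ ^ 3 * δ := by ring
    _ ≤ 1 * δ := by gcongr
    _ ≤ exp (-((17 / 8) ^ j * b)) := by rw [one_mul]; exact hδ
    _ ≤ exp (4 * log η + 8 * (55 - 2 ^ j * a)) := by
        refine exp_le_exp.2 ?_
        have e : (17 / 8 : ℝ) ^ j = 2 ^ j * (17 / 16) ^ j := by rw [← mul_pow]; norm_num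
        have h2j : (1 : ℝ) ≤ 2 ^ j := one_le_pow₀ (by norm_num)
        rw [e]
        have h6 := mul_le_mul_of_nonneg_left hj.le (by positivity : (0 : ℝ) ≤ 2 ^ j)
        have h7 : (2 : ℝ) ^ j * a ≤ 2 ^ j * |a| := by gcongr; exact le_abs_self a
        have h8 : |4 * log η| ≤ 2 ^ j * |4 * log η| := le_mul_of_one_le_left (abs_nonneg _) h2j
        have h9 := neg_abs_le (4 * log η)
        nlinarith
    _ = _ := by
        rw [exp_add, mul_pow, ← pow_mul, ← exp_nat_mul]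
        congr 1
        rw [show (4 : ℝ) * log η = ((4 : ℕ) : ℝ) * log η by norm_num, exp_nat_mul, exp_log hη]

end Crest.Agent.R104
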