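import Crest.Agent.R104.Iter
import Crest.Agent.R104.Char

/-!
The exponential-sum statistic that separates the Bernoulli convolution from Lebesgue measure.
-/

set_option autoImplicit false

namespace Crest.Agent.R104

open MeasureTheory Finset Real Filter Topology Crest.AnalysisR

section window

variable {β : ℝ} {ζ : ℂ} {τ u s : ℝ} {z : ℂ} {W : ℕ} {δ ρ c : ℝ}

lemma pow_mul_inv_pow (hβ : 1 < β) (r l : ℕ) : β ^ (l + r) * β⁻¹ ^ l = β ^ r := by
  have : β ≠ 0 := by linarith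
  rw [pow_add, inv_pow]; field_simp

lemma St.future (h : St β ζ τ u s z W δ ρ c) (hβ : 1 < β) {n l e : ℕ} (hl : n + e ≤ l) :
    |u * β ^ n * β⁻¹ ^ l| ≤ τ * β⁻¹ ^ e := by
  have hq0 : 0 < β⁻¹ := inv_pos.2 (by linarith)
  have hq1 : β⁻¹ < 1 := inv_lt_one_of_one_lt₀ hβ
  have hτ : 0 ≤ τ := (abs_nonneg _).trans h.hu
  obtain ⟨d, rfl⟩ := Nat.exists_eq_add_of_le hl
  have : u * β ^ n * β⁻¹ ^ (n + e + d) = u * β⁻¹ ^ e * β⁻¹ ^ d := by
    have h0 : β ≠ 0 := by linarith
    simp only [pow_add, inv_pow]; field_simp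
  rw [this, abs_mul, abs_mul, abs_of_pos (pow_pos hq0 _), abs_of_pos (pow_pos hq0 _)]
  calc |u| * β⁻¹ ^ e * β⁻¹ ^ d ≤ τ * β⁻¹ ^ e * 1 := by
        gcongr
        · exact h.hu
        · exact pow_le_one₀ hq0.le hq1.le
    _ = _ := by ring

lemma St.past (h : St β ζ τ u s z W δ ρ c) (hβ : 1 < β) (hζ : ‖ζ‖ = 1) {n l e : ℕ}
    (hl : l + W + e ≤ n) :
    ∃ x : ℝ, |x| ≤ τ * β⁻¹ ^ e + 2 * δ ∧ ∀ a, cos (u * β ^ n * β⁻¹ ^ l + a) = cos (x - a) := by
  have hq0 : 0 < β⁻¹ := inv_pos.2 (by linarith)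
  have hq1 : β⁻¹ < 1 := inv_lt_one_of_one_lt₀ hβ
  have hτ : 0 ≤ τ := (abs_nonneg _).trans h.hu
  obtain ⟨d, rfl⟩ := Nat.exists_eq_add_of_le hl
  refine ⟨s * β⁻¹ ^ (W + e + d) + 2 * (z * ζ ^ (W + e + d)).re, ?_, fun a => ?_⟩
  · refine (abs_add_le _ _).trans (add_le_add ?_ (abs_central_le hζ h.hz _))
    rw [abs_mul, abs_of_pos (pow_pos hq0 _)]
    calc |s| * β⁻¹ ^ (W + e + d) ≤ τ * β ^ W * β⁻¹ ^ (W + e + d) := by gcongr; exact h.hs
      _ = τ * β⁻¹ ^ e * β⁻¹ ^ d := by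
          have h0 : β ≠ 0 := by linarith
          simp only [pow_add, inv_pow]; field_simp
      _ ≤ τ * β⁻¹ ^ e * 1 := by gcongr; exact pow_le_one₀ hq0.le hq1.le
      _ = _ := by ring
  · rw [show l + W + e + d = l + (W + e + d) by ring, mul_assoc u, pow_mul_inv_pow hβ,
      h.int.cos_eq]
    congr 1; ring

lemma St.prod_ge (h : St β ζ τ u s z W δ ρ c) (hβ : 1 < β) (hζ : ‖ζ‖ = 1)
    (h4 : τ + 2 * δ ≤ 1) (n p k : ℕ) (hn : n + 1 = p + W) :
    (∏ r ∈ range W, cos (u * β ^ r)) ^ 2 * (1 - (3 * τ ^ 2 * (1 - β⁻¹)⁻¹ + 8 * δ ^ 2 * p)) ≤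
      (∏ r ∈ range W, cos (u * β ^ r)) *
        ∏ l ∈ range (p + W + k), cos (u * β ^ n * β⁻¹ ^ l) := by
  have hq0 : 0 < β⁻¹ := inv_pos.2 (by linarith)
  have hq1 : β⁻¹ < 1 := inv_lt_one_of_one_lt₀ hβ
  have hτ : 0 ≤ τ := (abs_nonneg _).trans h.hu
  have hδ : 0 ≤ δ := (norm_nonneg _).trans h.hz
  have hpl : ∀ e : ℕ, β⁻¹ ^ e ≤ 1 := fun e => pow_le_one₀ hq0.le hq1.le
  have hsq : ∀ e : ℕ, (β⁻¹ ^ e) ^ 2 ≤ β⁻¹ ^ e := fun e => by
    have := hpl e; have := pow_pos hq0 e; nlinarith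
  rw [Finset.prod_range_add, Finset.prod_range_add]
  have e2 : ∏ j ∈ range W, cos (u * β ^ n * β⁻¹ ^ (p + j)) = ∏ r ∈ range W, cos (u * β ^ r) := by
    rw [← Finset.prod_range_reflect (fun r => cos (u * β ^ r)) W]
    refine Finset.prod_congr rfl fun j hj => ?_
    have hj' := Finset.mem_range.1 hj
    rw [show n = (p + j) + (W - 1 - j) by omega, mul_assoc u, pow_mul_inv_pow hβ]
  have hx : ∀ l : ℕ, ∃ x : ℝ, l < p → |x| ≤ τ * β⁻¹ ^ (p - 1 - l) + 2 * δ ∧
      cos (u * β ^ n * β⁻¹ ^ l) = cos x := by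
    intro l
    by_cases hl : l < p
    · obtain ⟨x, h1, h2⟩ := h.past hβ hζ (n := n) (l := l) (e := p - 1 - l) (by omega)
      exact ⟨x, fun _ => ⟨h1, by simpa using h2 0⟩⟩
    · exact ⟨0, fun h => absurd h hl⟩
  choose x hx using hx
  have e1 : exp (-(2 * τ ^ 2 * (1 - β⁻¹)⁻¹ + 8 * δ ^ 2 * p)) ≤
      ∏ l ∈ range p, cos (u * β ^ n * β⁻¹ ^ l) := by
    rw [Finset.prod_congr rfl fun l hl => (hx l (Finset.mem_range.1 hl)).2]
    refine le_trans (exp_le_exp.2 (neg_le_neg ?_)) (exp_le_prod_cos (range p) x fun l hl => ?_)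
    · calc ∑ l ∈ range p, x l ^ 2
          ≤ ∑ l ∈ range p, (2 * τ ^ 2 * β⁻¹ ^ (p - 1 - l) + 8 * δ ^ 2) := by
            refine Finset.sum_le_sum fun l hl => ?_
            have h7 := (hx l (Finset.mem_range.1 hl)).1
            have h8 : x l ^ 2 ≤ (τ * β⁻¹ ^ (p - 1 - l) + 2 * δ) ^ 2 := by
              rw [← sq_abs]; exact pow_le_pow_left₀ (abs_nonneg _) h7 2
            have h11 := mul_le_mul_of_nonneg_left (hsq (p - 1 - l)) (sq_nonneg τ)
            nlinarith [sq_nonneg (τ * β⁻¹ ^ (p - 1 - l) - 2 * δ)]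
        _ = 2 * τ ^ 2 * ∑ l ∈ range p, β⁻¹ ^ (p - 1 - l) + 8 * δ ^ 2 * p := by
            rw [Finset.sum_add_distrib, ← Finset.mul_sum]; simp; ring
        _ ≤ _ := by
            gcongr
            refine sum_geom_le hq0.le hq1 (range p) (fun r => p - 1 - r) fun a ha b hb h => ?_
            simp only [Finset.coe_range, Set.mem_Iio] at ha hb h
            omega
    · have h7 := (hx l (Finset.mem_range.1 hl)).1
      have h8 := mul_le_mul_of_nonneg_left (hpl (p - 1 - l)) hτ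
      linarith
  have e3 : exp (-(τ ^ 2 * (1 - β⁻¹)⁻¹)) ≤
      ∏ j ∈ range k, cos (u * β ^ n * β⁻¹ ^ (p + W + j)) := by
    have hb : ∀ j, |u * β ^ n * β⁻¹ ^ (p + W + j)| ≤ τ * β⁻¹ ^ j :=
      fun j => h.future hβ (by omega)
    refine le_trans (exp_le_exp.2 (neg_le_neg ?_)) (exp_le_prod_cos (range k) _ fun l _ => ?_)
    · calc ∑ j ∈ range k, (u * β ^ n * β⁻¹ ^ (p + W + j)) ^ 2
          ≤ ∑ j ∈ range k, τ ^ 2 * β⁻¹ ^ j := by
            refine Finset.sum_le_sum fun l _ => ?_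
            have h8 : (u * β ^ n * β⁻¹ ^ (p + W + l)) ^ 2 ≤ (τ * β⁻¹ ^ l) ^ 2 := by
              rw [← sq_abs]; exact pow_le_pow_left₀ (abs_nonneg _) (hb l) 2
            have h11 := mul_le_mul_of_nonneg_left (hsq l) (sq_nonneg τ)
            nlinarith
        _ = τ ^ 2 * ∑ l ∈ range k, β⁻¹ ^ l := by rw [← Finset.mul_sum]
        _ ≤ _ := by
            gcongr
            exact sum_geom_le hq0.le hq1 (range k) id (fun a _ b _ h => h)
    · have h8 := mul_le_mul_of_nonneg_left (hpl l) hτ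
      linarith [hb l]
  rw [e2]
  set c' := ∏ r ∈ range W, cos (u * β ^ r)
  set A := ∏ l ∈ range p, cos (u * β ^ n * β⁻¹ ^ l)
  set C := ∏ j ∈ range k, cos (u * β ^ n * β⁻¹ ^ (p + W + j))
  have e4 : 1 - (3 * τ ^ 2 * (1 - β⁻¹)⁻¹ + 8 * δ ^ 2 * p) ≤ A * C := by
    calc _ ≤ exp (-(3 * τ ^ 2 * (1 - β⁻¹)⁻¹ + 8 * δ ^ 2 * p)) := by
          linarith [add_one_le_exp (-(3 * τ ^ 2 * (1 - β⁻¹)⁻¹ + 8 * δ ^ 2 * p))]
      _ = exp (-(2 * τ ^ 2 * (1 - β⁻¹)⁻¹ + 8 * δ ^ 2 * p)) * exp (-(τ ^ 2 * (1 - β⁻¹)⁻¹)) := by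
          rw [← exp_add]; congr 1; ring
      _ ≤ A * C := mul_le_mul e1 e3 (exp_pos _).le ((exp_pos _).le.trans e1)
  calc _ ≤ c' ^ 2 * (A * C) := mul_le_mul_of_nonneg_left e4 (sq_nonneg _)
    _ = _ := by ring

lemma St.prod_le (h : St β ζ τ u s z W δ ρ c) (hβ : 1 < β) (hζ : ‖ζ‖ = 1) (hτ1 : τ ≤ 1)
    (hW : β⁻¹ ^ W ≤ δ) (n m K : ℕ) (hm : W ≤ m) (hn : m + 2 * W ≤ n) (hK : n < K) :
    |∏ l ∈ range K, cos ((u * β ^ n - u * β ^ m) * β⁻¹ ^ l)| ≤
      (|∏ r ∈ range W, cos (u * β ^ r)| + W * (3 * δ)) ^ 2 := by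
  classical
  have hq0 : 0 < β⁻¹ := inv_pos.2 (by linarith)
  have hδ : 0 ≤ δ := (norm_nonneg _).trans h.hz
  have hτW : τ * β⁻¹ ^ W ≤ δ := (mul_le_of_le_one_left (pow_pos hq0 _).le hτ1).trans hW
  set g : ℕ → ℝ := fun l => cos ((u * β ^ n - u * β ^ m) * β⁻¹ ^ l) with hg
  set c' := ∏ r ∈ range W, cos (u * β ^ r) with hc'
  have hsub : (range W).image (n - ·) ∪ (range W).image (m - ·) ⊆ range K := by
    intro l hl
    simp only [Finset.mem_union, Finset.mem_image, Finset.mem_range] at hl ⊢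
    rcases hl with ⟨r, _, rfl⟩ | ⟨r, _, rfl⟩ <;> omega
  have hdisj : Disjoint ((range W).image (n - ·)) ((range W).image (m - ·)) := by
    rw [Finset.disjoint_left]
    intro l h1 h2
    simp only [Finset.mem_image, Finset.mem_range] at h1 h2
    obtain ⟨r, hr, rfl⟩ := h1
    obtain ⟨r', hr', h⟩ := h2
    omega
  have hinj : ∀ a, W ≤ a → Set.InjOn (a - ·) (range W : Set ℕ) := by
    intro a ha x hx y hy hxy
    simp only [Finset.coe_range, Set.mem_Iio] at hx hy hxy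
    omega
  have b1 : |∏ r ∈ range W, g (n - r)| ≤ |c'| + W * (3 * δ) := by
    have := prod_cos_sub_le W (fun r => u * β ^ r) (fun r => -(u * β ^ m * β⁻¹ ^ (n - r)))
      (3 * δ) fun r hr => by
        rw [abs_neg]
        have := h.future hβ (n := m) (l := n - r) (e := W) (by omega)
        linarith
    have e : ∏ r ∈ range W, g (n - r) =
        ∏ r ∈ range W, cos (u * β ^ r + -(u * β ^ m * β⁻¹ ^ (n - r))) := by
      refine Finset.prod_congr rfl fun r hr => ?_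
      have hr' := Finset.mem_range.1 hr
      simp only [hg]
      congr 1
      rw [← pow_mul_inv_pow hβ r (n - r), show n - r + r = n by omega]; ring
    rw [e]
    linarith [abs_sub_abs_le_abs_sub
      (∏ r ∈ range W, cos (u * β ^ r + -(u * β ^ m * β⁻¹ ^ (n - r)))) c']
  have b2 : |∏ r ∈ range W, g (m - r)| ≤ |c'| + W * (3 * δ) := by
    choose x hx1 hx2 using fun r : ℕ =>
      h.past hβ hζ (n := n) (l := m - r) (e := W) (by omega)
    have := prod_cos_sub_le W (fun r => u * β ^ r) x (3 * δ) fun r _ => by linarith [hx1 r]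
    have e : ∏ r ∈ range W, g (m - r) = ∏ r ∈ range W, cos (u * β ^ r + x r) := by
      refine Finset.prod_congr rfl fun r hr => ?_
      have hr' := Finset.mem_range.1 hr
      simp only [hg]
      rw [show u * β ^ r + x r = x r - -(u * β ^ r) by ring, ← hx2]
      congr 1
      rw [← pow_mul_inv_pow hβ r (m - r), show m - r + r = m by omega]; ring
    rw [e]
    linarith [abs_sub_abs_le_abs_sub (∏ r ∈ range W, cos (u * β ^ r + x r)) c']
  calc |∏ l ∈ range K, g l| = ∏ l ∈ range K, |g l| := Finset.abs_prod _ _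
    _ ≤ ∏ l ∈ (range W).image (n - ·) ∪ (range W).image (m - ·), |g l| :=
        Finset.prod_le_prod_of_subset_of_le_one hsub (fun _ _ => abs_nonneg _)
          fun _ _ _ => abs_cos_le_one _
    _ = |∏ r ∈ range W, g (n - r)| * |∏ r ∈ range W, g (m - r)| := by
        rw [Finset.prod_union hdisj, Finset.prod_image (hinj n (by omega)),
          Finset.prod_image (hinj m hm), Finset.abs_prod, Finset.abs_prod]
    _ ≤ _ := by rw [sq]; gcongr

end window

lemma exists_sep {β : ℝ} (hβ : IsQuarticSalem β) {η : ℝ} (hη : 0 < η) (hη1 : η ≤ 1) :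
    ∃ A : Set ℝ, (bernoulliConvolution β⁻¹).real Aᶜ ≤ 328 * η ∧ volume A ≠ ⊤ ∧
      volume.real A ≤ (8 * (1 - β⁻¹)⁻¹ + 8) * η := by
  obtain ⟨ζ, hζ, hp⟩ := exists_power_sums hβ
  have h1 := hβ.1
  have hq0 : 0 < β⁻¹ := inv_pos.2 (by linarith)
  have hq1 : β⁻¹ < 1 := inv_lt_one_of_one_lt₀ h1
  set B := (1 - β⁻¹)⁻¹ with hB
  have hB0 : 0 < B := inv_pos.2 (by linarith)
  set τ := min (1 / 4) (η / (6 * B)) with hτ
  have hτ0 : 0 < τ := lt_min (by norm_num) (by positivity)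
  have hτ1 : τ ≤ 1 / 4 := min_le_left _ _
  have hτ2 : 6 * τ ^ 2 * B ≤ η := by
    have h2 : τ ≤ η / (6 * B) := min_le_right _ _
    rw [le_div_iff₀ (by positivity)] at h2
    nlinarith
  obtain ⟨W, δ, c, ⟨⟨u, s, z, hst⟩, hδ0, hδ1, -, hqW⟩, hfin⟩ :=
    exists_final hβ hζ hp hτ0 hτ1 (hτ2.trans hη1) hη
  have hδ2 : δ ≤ 1 / 4 := by norm_num at hδ1; linarith
  have hW : 1 ≤ W := by
    rcases Nat.eq_zero_or_pos W with h | h
    · rw [h, pow_zero] at hqW; linarith
    · exact h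
  have hWr : (1 : ℝ) ≤ W := by exact_mod_cast hW
  set c' := ∏ r ∈ range W, cos (u * β ^ r) with hc'
  have hcc : c ≤ |c'| := by simpa using hst.roba (fun _ => 0) fun _ => by simpa using hδ0.le
  have hc1 : |c'| ≤ 1 := abs_prod_le_one _ _ fun _ => abs_cos_le_one _
  have hc0 : 0 < |c'| := hst.cpos.trans_le hcc
  set κ := c' ^ 2 with hκ
  have hκa : κ = |c'| ^ 2 := (sq_abs c').symm
  have hκ0 : 0 < κ := by rw [hκa]; positivity
  have hκ1 : κ ≤ |c'| := by rw [hκa]; nlinarith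
  have hWδ : W * δ ≤ η * κ := by
    refine hfin.trans ?_
    rw [hκa]
    have := hst.cpos
    gcongr
  have hδκ : δ ≤ η * κ := le_trans (le_mul_of_one_le_left hδ0.le hWr) hWδ
  have hηκ : η * κ ≤ 1 := by nlinarith
  set L := ⌈(η * κ)⁻¹⌉₊ with hL
  have hL0 : 0 < L := Nat.ceil_pos.2 (by positivity)
  have hLr : (0 : ℝ) < L := by exact_mod_cast hL0
  have hL1 : 1 / (L : ℝ) ≤ η * κ := by
    rw [div_le_iff₀ hLr]
    have := Nat.le_ceil (η * κ)⁻¹
    calc (1 : ℝ) = η * κ * (η * κ)⁻¹ := (mul_inv_cancel₀ (by positivity)).symm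
      _ ≤ _ := by gcongr
  have hL2 : (L : ℝ) * (η * κ) ≤ 2 := by
    have := (Nat.ceil_lt_add_one (a := (η * κ)⁻¹) (by positivity)).le
    calc (L : ℝ) * (η * κ) ≤ ((η * κ)⁻¹ + 1) * (η * κ) := by gcongr
      _ = 1 + η * κ := by field_simp
      _ ≤ 2 := by linarith
  set t : ℕ → ℝ := fun i => u * β ^ (2 * W * (i + 1)) with ht
  set ν := bernoulliConvolution β⁻¹ with hν
  -- first moment under `ν`
  have m1 : ∀ i < L, κ * (1 - 33 * η) ≤ c' * psi ν (t i) := by
    intro i hi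
    have hge : W ≤ 2 * W * (i + 1) := by nlinarith
    refine ge_of_tendsto ((psi_tendsto hq0.le hq1 (t i)).const_mul c')
      (eventually_atTop.2 ⟨2 * W * (i + 1) + 1, fun K hK => ?_⟩)
    obtain ⟨k, rfl⟩ := Nat.exists_eq_add_of_le hK
    have := hst.prod_ge h1 hζ (by linarith) (2 * W * (i + 1)) (2 * W * (i + 1) + 1 - W) k
      (by omega)
    rw [show 2 * W * (i + 1) + 1 - W + W = 2 * W * (i + 1) + 1 by omega] at this
    refine le_trans (mul_le_mul_of_nonneg_left ?_ hκ0.le) this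
    have h2 : ((2 * W * (i + 1) + 1 - W : ℕ) : ℝ) ≤ 2 * W * L := by
      have : 2 * W * (i + 1) + 1 - W ≤ 2 * W * L := by
        have : 2 * W * (i + 1) ≤ 2 * W * L := Nat.mul_le_mul_left _ hi
        omega
      exact_mod_cast this
    have h3 : δ ^ 2 * ((2 * W * (i + 1) + 1 - W : ℕ) : ℝ) ≤ 4 * η := by
      calc _ ≤ δ ^ 2 * (2 * W * L) := by gcongr
        _ = 2 * δ * (L * (W * δ)) := by ring
        _ ≤ 2 * δ * (L * (η * κ)) := by gcongr
        _ ≤ 2 * δ * 2 := by gcongr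
        _ ≤ 4 * η := by nlinarith
    rw [← hB]
    nlinarith
  -- second moment under `ν`
  have m2 : ∀ i j, i ≠ j → psi ν (t i - t j) ≤ κ * (1 + 15 * η) := by
    have hb : (|c'| + W * (3 * δ)) ^ 2 ≤ κ * (1 + 15 * η) := by
      have h2 : (W : ℝ) * (3 * δ) ≤ 3 * η * |c'| := by nlinarith
      calc _ ≤ (|c'| + 3 * η * |c'|) ^ 2 := by gcongr
        _ = κ * (1 + 3 * η) ^ 2 := by rw [hκa]; ring
        _ ≤ _ := by gcongr; nlinarith
    have aux : ∀ i j, j < i → psi ν (t i - t j) ≤ κ * (1 + 15 * η) := by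
      intro i j hij
      refine le_of_tendsto (psi_tendsto hq0.le hq1 (t i - t j))
        (eventually_atTop.2 ⟨2 * W * (i + 1) + 1, fun K hK => ?_⟩)
      refine (le_abs_self _).trans (le_trans ?_ hb)
      exact hst.prod_le h1 hζ (by linarith) hqW _ _ K (by nlinarith) (by nlinarith) hK
    intro i j hij
    rcases hij.lt_or_gt with h | h
    · have : psi ν (t i - t j) = psi ν (t j - t i) := by
        unfold psi
        congr 1; funext x
        rw [← cos_neg]; congr 1; ring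
      rw [this]; exact aux j i h
    · exact aux i j h
  -- second moment under Lebesgue measure
  have m3 : ∀ i j, i ≠ j → psi (volume.restrict (Set.Icc (-B) B)) (t i - t j) ≤ 2 * δ := by
    have hβW : δ⁻¹ ≤ β ^ W := by
      rw [inv_pow, inv_le_comm₀ (by positivity) hδ0] at hqW; exact hqW
    have hδi : 4 ≤ δ⁻¹ := by rw [le_inv_comm₀ (by norm_num) hδ0]; linarith
    have aux : ∀ i j, j < i → δ⁻¹ ≤ |t i - t j| := by
      intro i j hij
      obtain ⟨d, rfl⟩ := Nat.exists_eq_add_of_lt hij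
      have e : t (j + d + 1) - t j =
          u * β ^ W * β ^ W * β ^ (2 * W * j) * (β ^ W * β ^ (W + 2 * W * d) - 1) := by
        simp only [ht]; ring
      have h2 : 1 ≤ β ^ (2 * W * j) := one_le_pow₀ h1.le
      have h3 : 1 ≤ β ^ (W + 2 * W * d) := one_le_pow₀ h1.le
      have h4 : 1 ≤ β ^ W * β ^ (W + 2 * W * d) - 1 := by nlinarith
      rw [e, abs_mul, abs_mul, abs_mul, abs_mul, abs_of_pos (by positivity : 0 < β ^ W),
        abs_of_pos (by positivity : 0 < β ^ (2 * W * j)), abs_of_pos (by linarith : 0 < β ^ W * β ^ (W + 2 * W * d) - 1)]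
      calc δ⁻¹ = 1 * δ⁻¹ * 1 * 1 := by ring
        _ ≤ _ := by gcongr; exact hst.big
    intro i j hij
    have h2 : δ⁻¹ ≤ |t i - t j| := by
      rcases hij.lt_or_gt with h | h
      · rw [abs_sub_comm]; exact aux j i h
      · exact aux i j h
    have h3 : t i - t j ≠ 0 := abs_pos.1 (by linarith)
    refine (abs_psi_Icc B _ hB0.le h3).trans ?_
    calc 2 / |t i - t j| ≤ 2 / δ⁻¹ := by gcongr
      _ = 2 * δ := by field_simp
  set H : ℝ → ℝ := fun x => sqAvg L t x - 2 * c' * cosAvg L t x + κ with hH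
  have hHge : ∀ x, (cosAvg L t x - c') ^ 2 ≤ H x := fun x => by
    have := cosAvg_sq_le L t x
    simp only [hH, hκ]; nlinarith
  have hHint : Integrable H ν :=
    ((integrable_sqAvg ν L t).sub ((integrable_cosAvg ν L t).const_mul _)).add
      (integrable_const _)
  have hHI : ∫ x, H x ∂ν ≤ 82 * η * κ := by
    simp only [hH]
    rw [integral_add (f := fun x => sqAvg L t x - 2 * c' * cosAvg L t x)
      ((integrable_sqAvg ν L t).sub ((integrable_cosAvg ν L t).const_mul _))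
      (integrable_const _), integral_sub (integrable_sqAvg ν L t)
      ((integrable_cosAvg ν L t).const_mul _), integral_const_mul, integral_cosAvg]
    have h2 := integral_sqAvg_le ν L hL0 t _ (by positivity) m2
    have h3 : κ * (1 - 33 * η) ≤ c' * ((∑ i ∈ range L, psi ν (t i)) / L) := by
      rw [← mul_div_assoc, le_div_iff₀ hLr, Finset.mul_sum]
      calc κ * (1 - 33 * η) * L = ∑ _i ∈ range L, κ * (1 - 33 * η) := by simp; ring
        _ ≤ _ := Finset.sum_le_sum fun i hi => m1 i (Finset.mem_range.1 hi)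
    simp only [probReal_univ, integral_const, smul_eq_mul, one_mul] at h2 ⊢
    nlinarith
  refine ⟨Set.Icc (-B) B ∩ {x | H x < κ / 4}, ?_, ?_, ?_⟩
  · rw [Set.compl_inter]
    refine (measureReal_union_le _ _).trans ?_
    have h2 : ν.real (Set.Icc (-B) B)ᶜ = 0 := by
      rw [measureReal_def, hν, hB, bc_compl_Icc hq0.le hq1]; rfl
    have h3 := mul_meas_ge_le_integral_of_nonneg (μ := ν) (f := H)
      (ae_of_all _ fun x => (sq_nonneg _).trans (hHge x)) hHint (κ / 4)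
    have h4 : {x | H x < κ / 4}ᶜ = {x | κ / 4 ≤ H x} := by ext x; simp
    rw [h2, h4, zero_add]
    have h5 : κ * ν.real {x | κ / 4 ≤ H x} ≤ κ * (328 * η) := by linarith
    exact le_of_mul_le_mul_left h5 hκ0
  · exact ne_top_of_le_ne_top (by simp) (measure_mono Set.inter_subset_left)
  · set μ := volume.restrict (Set.Icc (-B) B) with hμ
    have h2 := integral_sqAvg_le μ L hL0 t _ (by positivity) m3
    have h3 := mul_meas_ge_le_integral_of_nonneg (μ := μ) (f := sqAvg L t)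
      (ae_of_all _ fun x => (sq_nonneg _).trans (cosAvg_sq_le L t x))
      (integrable_sqAvg μ L t) (κ / 4)
    have h4 : μ.real Set.univ = 2 * B := by
      rw [hμ, measureReal_restrict_apply_univ, Real.volume_real_Icc_of_le (by linarith)]; ring
    have h5 : volume.real (Set.Icc (-B) B ∩ {x | H x < κ / 4}) ≤
        μ.real {x | κ / 4 ≤ sqAvg L t x} := by
      rw [hμ, measureReal_restrict_apply' measurableSet_Icc, Set.inter_comm]
      refine measureReal_mono (Set.inter_subset_inter_left _ fun x hx => ?_)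
        (ne_top_of_le_ne_top (by simp) (measure_mono Set.inter_subset_right))
      simp only [Set.mem_ofPred_eq] at hx ⊢
      have h6 := hHge x
      have h7 := cosAvg_sq_le L t x
      rw [hκ] at hx ⊢
      nlinarith [sq_nonneg (cosAvg L t x - c' / 2), sq_nonneg (c' - 2 * (cosAvg L t x - c')),
        sq_nonneg (c' + 2 * (cosAvg L t x - c'))]
    rw [h4] at h2
    have h6 : 2 * B / L ≤ 2 * B * (η * κ) := by
      rw [div_eq_mul_one_div]; gcongr
    have h7 : κ * μ.real {x | κ / 4 ≤ sqAvg L t x} ≤ κ * ((8 * B + 8) * η) := by nlinarith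
    exact h5.trans (le_of_mul_le_mul_left h7 hκ0)

theorem main {β : ℝ} (hβ : IsQuarticSalem β) :
    (bernoulliConvolution β⁻¹).MutuallySingular (volume : Measure ℝ) := by
  refine Measure.mutuallySingular_of_disjoint fun ξ h1 h2 => ?_
  have hq1 : β⁻¹ < 1 := inv_lt_one_of_one_lt₀ hβ.1
  set B := (1 - β⁻¹)⁻¹ with hB
  have hB0 : 0 < B := inv_pos.2 (by linarith)
  have : IsFiniteMeasure ξ := isFiniteMeasure_of_le _ h1
  have key : ξ.real Set.univ ≤ 0 := by
    refine le_of_forall_pos_le_add fun e he => ?_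
    set η := min 1 (e / (336 + 8 * B)) with hη
    obtain ⟨A, a1, a2, a3⟩ := exists_sep hβ (η := η) (lt_min one_pos (by positivity))
      (min_le_left _ _)
    have h3 : η ≤ e / (336 + 8 * B) := min_le_right _ _
    rw [le_div_iff₀ (by positivity)] at h3
    have h4 : ξ.real A ≤ volume.real A := ENNReal.toReal_mono a2 (h2 A)
    have h5 : ξ.real Aᶜ ≤ (bernoulliConvolution β⁻¹).real Aᶜ :=
      ENNReal.toReal_mono (measure_ne_top _ _) (h1 Aᶜ)
    have h6 := measureReal_union_le (μ := ξ) A Aᶜ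
    rw [Set.union_compl_self] at h6
    rw [← hB] at a3
    linarith
  have h0 : ξ Set.univ = 0 := by
    rw [← measureReal_eq_zero_iff]
    exact le_antisymm key measureReal_nonneg
  rw [Measure.measure_univ_eq_zero.1 h0]
  exact le_rfl

end Crest.Agent.R104
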