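import Crest.Agent.R104.Cos

/-!
The doubling step `k ↦ (1 - β⁻ⁿ) k` on lattice triples and its effect on cosine products.
-/

set_option autoImplicit false

namespace Crest.Agent.R104

open Finset Real

/-- A triple of conjugates whose traces against all powers lie in `2πℤ`. -/
def Intg (β : ℝ) (ζ : ℂ) (u s : ℝ) (z : ℂ) : Prop :=
  ∀ r : ℤ, ∃ m : ℤ, u * β ^ r + s * β ^ (-r) + 2 * (z * ζ ^ r).re = m * (2 * π)

lemma Intg.shift {β : ℝ} {ζ : ℂ} {u s : ℝ} {z : ℂ} (h : Intg β ζ u s z) (hβ : β ≠ 0)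
    (hζ : ζ ≠ 0) (n : ℕ) : Intg β ζ (u * β⁻¹ ^ n) (s * β ^ n) (z * ζ⁻¹ ^ n) := by
  intro r
  obtain ⟨m, hm⟩ := h (r - n)
  refine ⟨m, ?_⟩
  rw [← hm, neg_sub, zpow_sub₀ hβ, zpow_sub₀ hβ, zpow_sub₀ hζ, zpow_neg]
  simp only [zpow_natCast, inv_pow]
  congr 1
  · ring
  · congr 2; ring

lemma Intg.sub {β : ℝ} {ζ : ℂ} {u s u' s' : ℝ} {z z' : ℂ} (h : Intg β ζ u s z)
    (h' : Intg β ζ u' s' z') : Intg β ζ (u - u') (s - s') (z - z') := by
  intro r
  obtain ⟨m, hm⟩ := h r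
  obtain ⟨m', hm'⟩ := h' r
  refine ⟨m - m', ?_⟩
  rw [sub_mul z, Complex.sub_re]
  push_cast
  linarith

lemma Intg.cos_eq {β : ℝ} {ζ : ℂ} {u s : ℝ} {z : ℂ} (h : Intg β ζ u s z) (r : ℕ) (a : ℝ) :
    cos (u * β ^ r + a) = cos (s * β⁻¹ ^ r + (2 * (z * ζ ^ r).re - a)) := by
  obtain ⟨m, hm⟩ := h r
  rw [zpow_neg, zpow_natCast, zpow_natCast, ← inv_pow] at hm
  rw [← cos_neg (s * β⁻¹ ^ r + _), ← cos_add_int_mul_two_pi (-_) m]
  congr 1
  linarith

lemma abs_central_le {ζ z : ℂ} (hζ : ‖ζ‖ = 1) {δ : ℝ} (hz : ‖z‖ ≤ δ) (r : ℕ) :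
    |2 * (z * ζ ^ r).re| ≤ 2 * δ := by
  rw [abs_mul, abs_two]
  have := Complex.abs_re_le_norm (z * ζ ^ r)
  rw [norm_mul, norm_pow, hζ, one_pow, mul_one] at this
  linarith

/-- The invariant carried along the doubling construction. -/
structure St (β : ℝ) (ζ : ℂ) (τ u s : ℝ) (z : ℂ) (W : ℕ) (δ ρ c : ℝ) : Prop where
  int : Intg β ζ u s z
  hu : |u| ≤ τ
  hs : |s| ≤ τ * β ^ W
  hz : ‖z‖ ≤ δ
  big : 1 ≤ |u| * β ^ W
  cpos : 0 < c
  roba : ∀ y : ℕ → ℝ, (∀ r, |y r| ≤ ρ) → c ≤ |∏ r ∈ range W, cos (u * β ^ r + y r)|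
  robb : ∀ y : ℕ → ℝ, (∀ r, |y r| ≤ ρ) → c ≤ |∏ r ∈ range W, cos (s * β⁻¹ ^ r + y r)|

lemma rob_range {W : ℕ} {f : ℕ → ℝ} {ρ c : ℝ} (hρ : 0 ≤ ρ)
    (h : ∀ y : ℕ → ℝ, (∀ r, |y r| ≤ ρ) → c ≤ |∏ r ∈ range W, cos (f r + y r)|)
    (y : ℕ → ℝ) (hy : ∀ r < W, |y r| ≤ ρ) : c ≤ |∏ r ∈ range W, cos (f r + y r)| := by
  have := h (fun r => if r < W then y r else 0) fun r => by
    split_ifs with hr
    · exact hy r hr
    · simpa using hρ
  refine this.trans (le_of_eq ?_)
  congr 1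
  exact Finset.prod_congr rfl fun r hr => by rw [if_pos (Finset.mem_range.1 hr)]

lemma St.step {β : ℝ} {ζ : ℂ} {τ u s : ℝ} {z : ℂ} {W : ℕ} {δ ρ c : ℝ}
    (h : St β ζ τ u s z W δ ρ c) (hβ : 1 < β) (hζ : ‖ζ‖ = 1) (p : ℕ) (δ' : ℝ) (hδ' : 0 ≤ δ')
    (h1 : τ * β⁻¹ ^ p + 5 * δ' ≤ ρ) (h2 : ‖z * (1 - ζ⁻¹ ^ (W + p))‖ ≤ δ') (h3 : 3 * δ' ≤ δ)
    (h4 : 2 * τ + 3 * δ ≤ 1) (h5 : 6 * τ ^ 2 * (1 - β⁻¹)⁻¹ ≤ 1) (h6 : 2 ≤ β ^ (W + p)) :
    St β ζ τ (u - u * β⁻¹ ^ (W + p)) (s - s * β ^ (W + p)) (z - z * ζ⁻¹ ^ (W + p))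
      (W + p + W) δ' δ' (c ^ 2 * exp (-(1 + 27 * p * δ ^ 2))) := by
  have hβ0 : 0 < β := by linarith
  have hζ0 : ζ ≠ 0 := by intro h; simp [h] at hζ
  set q := β⁻¹ with hq
  have hq0 : 0 < q := inv_pos.2 hβ0
  have hq1 : q < 1 := inv_lt_one_of_one_lt₀ hβ
  have hqβ : q * β = 1 := inv_mul_cancel₀ hβ0.ne'
  have hqβn : ∀ n : ℕ, q ^ n * β ^ n = 1 := fun n => by rw [← mul_pow, hqβ, one_pow]
  have hτ : 0 ≤ τ := (abs_nonneg _).trans h.hu
  have hρ : 0 ≤ ρ := le_trans (by positivity) h1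
  have hδ : 0 ≤ δ := by linarith
  have hint' := h.int.sub (h.int.shift hβ0.ne' hζ0 (W + p))
  have hz' : ‖z - z * ζ⁻¹ ^ (W + p)‖ ≤ δ' := by rw [mul_one_sub] at h2; exact h2
  -- the tail of the second copy
  have tailu : ∀ r e : ℕ, r + e ≤ W + p → |u * q ^ (W + p) * β ^ r| ≤ τ * q ^ e := by
    intro r e hre
    obtain ⟨d, hd⟩ := Nat.exists_eq_add_of_le hre
    have : u * q ^ (W + p) * β ^ r = u * q ^ e * q ^ d := by
      rw [hd, pow_add, pow_add]
      linear_combination (u * q ^ e * q ^ d) * hqβn r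
    rw [this, abs_mul, abs_mul, abs_of_pos (pow_pos hq0 _), abs_of_pos (pow_pos hq0 _)]
    calc |u| * q ^ e * q ^ d ≤ τ * q ^ e * 1 := by
          gcongr
          · exact h.hu
          · exact pow_le_one₀ hq0.le hq1.le
      _ = _ := by ring
  have tails : ∀ r e : ℕ, W + e ≤ r → |s * q ^ r| ≤ τ * q ^ e := by
    intro r e hre
    obtain ⟨d, hd⟩ := Nat.exists_eq_add_of_le hre
    rw [hd, abs_mul, abs_of_pos (pow_pos hq0 _)]
    calc |s| * q ^ (W + e + d) ≤ τ * β ^ W * q ^ (W + e + d) := by gcongr; exact h.hs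
      _ = τ * q ^ e * q ^ d := by
          rw [pow_add, pow_add]; linear_combination (τ * q ^ e * q ^ d) * hqβn W
      _ ≤ τ * q ^ e * 1 := by gcongr; exact pow_le_one₀ hq0.le hq1.le
      _ = _ := by ring
  have key : ∀ y : ℕ → ℝ, (∀ r, |y r| ≤ 3 * δ') → c ^ 2 * exp (-(1 + 27 * p * δ ^ 2)) ≤
      |∏ r ∈ range (W + p + W), cos ((u - u * q ^ (W + p)) * β ^ r + y r)| := by
    intro y hy
    rw [Finset.prod_range_add, Finset.prod_range_add, abs_mul, abs_mul]
    have e1 : c ≤ |∏ r ∈ range W, cos ((u - u * q ^ (W + p)) * β ^ r + y r)| := by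
      have := rob_range hρ h.roba (fun r => y r - u * q ^ (W + p) * β ^ r) fun r hr => by
        have := tailu r p (by omega)
        have h7 := abs_sub (y r) (u * q ^ (W + p) * β ^ r)
        linarith [hy r]
      refine this.trans (le_of_eq ?_)
      congr 1
      exact Finset.prod_congr rfl fun r _ => by congr 1; ring
    have e3 : c ≤ |∏ r ∈ range W,
        cos ((u - u * q ^ (W + p)) * β ^ (W + p + r) + y (W + p + r))| := by
      have := rob_range hρ h.robb (fun r => y (W + p + r) - s * q ^ (W + p + r) -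
          2 * ((z - z * ζ⁻¹ ^ (W + p)) * ζ ^ (W + p + r)).re) fun r hr => by
        have h7 := tails (W + p + r) p (by omega)
        have h8 := abs_central_le hζ hz' (W + p + r)
        have h9 := abs_sub (y (W + p + r) - s * q ^ (W + p + r))
          (2 * ((z - z * ζ⁻¹ ^ (W + p)) * ζ ^ (W + p + r)).re)
        have h10 := abs_sub (y (W + p + r)) (s * q ^ (W + p + r))
        linarith [hy (W + p + r)]
      refine this.trans (le_of_eq ?_)
      congr 1
      refine Finset.prod_congr rfl fun r _ => ?_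
      rw [hint'.cos_eq, ← cos_neg]
      congr 1
      rw [← hq, pow_add q (W + p) r]
      linear_combination (s * q ^ r) * hqβn (W + p)
    have e2 : exp (-(1 + 27 * p * δ ^ 2)) ≤ |∏ r ∈ range p,
        cos ((u - u * q ^ (W + p)) * β ^ (W + r) + y (W + r))| := by
      set x : ℕ → ℝ := fun r => s * q ^ (W + r) + (2 * (z * ζ ^ (W + r)).re -
        (y (W + r) - u * q ^ (W + p) * β ^ (W + r))) with hx
      have hxe : ∀ r, cos ((u - u * q ^ (W + p)) * β ^ (W + r) + y (W + r)) = cos (x r) := by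
        intro r
        rw [hx]
        simp only
        rw [← h.int.cos_eq]
        congr 1; ring
      have hxb : ∀ r < p, |x r| ≤ τ * q ^ r + τ * q ^ (p - r) + 3 * δ := by
        intro r hr
        have h7 := tails (W + r) r le_rfl
        have h8 := abs_central_le hζ h.hz (W + r)
        have h9 := tailu (W + r) (p - r) (by omega)
        have h10 := abs_add_le (s * q ^ (W + r)) (2 * (z * ζ ^ (W + r)).re -
          (y (W + r) - u * q ^ (W + p) * β ^ (W + r)))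
        have h11 := abs_sub (2 * (z * ζ ^ (W + r)).re)
          (y (W + r) - u * q ^ (W + p) * β ^ (W + r))
        have h12 := abs_sub (y (W + r)) (u * q ^ (W + p) * β ^ (W + r))
        simp only [hx]
        linarith [hy (W + r)]
      have hpl : ∀ e : ℕ, q ^ e ≤ 1 := fun e => pow_le_one₀ hq0.le hq1.le
      simp only [hxe]
      refine le_trans ?_ (le_abs_self _)
      refine le_trans ?_ (exp_le_prod_cos (range p) x fun r hr => ?_)
      · refine exp_le_exp.2 (neg_le_neg ?_)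
        calc ∑ r ∈ range p, x r ^ 2
            ≤ ∑ r ∈ range p, (3 * τ ^ 2 * q ^ r + 3 * τ ^ 2 * q ^ (p - r) + 27 * δ ^ 2) := by
              refine Finset.sum_le_sum fun r hr => ?_
              have h7 := hxb r (Finset.mem_range.1 hr)
              have h8 : x r ^ 2 ≤ (τ * q ^ r + τ * q ^ (p - r) + 3 * δ) ^ 2 := by
                rw [← sq_abs]; exact pow_le_pow_left₀ (abs_nonneg _) h7 2
              have h9 : (q ^ r) ^ 2 ≤ q ^ r := by
                have := hpl r; have := pow_pos hq0 r; nlinarith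
              have h10 : (q ^ (p - r)) ^ 2 ≤ q ^ (p - r) := by
                have := hpl (p - r); have := pow_pos hq0 (p - r); nlinarith
              have h11 := mul_le_mul_of_nonneg_left h9 (sq_nonneg τ)
              have h12 := mul_le_mul_of_nonneg_left h10 (sq_nonneg τ)
              nlinarith [sq_nonneg (τ * q ^ r - τ * q ^ (p - r)), sq_nonneg (τ * q ^ r - 3 * δ),
                sq_nonneg (τ * q ^ (p - r) - 3 * δ)]
          _ = 3 * τ ^ 2 * ∑ r ∈ range p, q ^ r + 3 * τ ^ 2 * ∑ r ∈ range p, q ^ (p - r) +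
                27 * p * δ ^ 2 := by
              rw [Finset.sum_add_distrib, Finset.sum_add_distrib, ← Finset.mul_sum,
                ← Finset.mul_sum]
              simp; ring
          _ ≤ 3 * τ ^ 2 * (1 - q)⁻¹ + 3 * τ ^ 2 * (1 - q)⁻¹ + 27 * p * δ ^ 2 := by
              gcongr
              · exact sum_geom_le hq0.le hq1 (range p) id (fun a _ b _ h => h)
              · refine sum_geom_le hq0.le hq1 (range p) (fun r => p - r) fun a ha b hb h => ?_
                simp only [Finset.coe_range, Set.mem_Iio] at ha hb h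
                omega
          _ ≤ _ := by linarith
      · have h7 := hxb r (Finset.mem_range.1 hr)
        have h8 := mul_le_mul_of_nonneg_left (hpl r) hτ
        have h9 := mul_le_mul_of_nonneg_left (hpl (p - r)) hτ
        linarith
    calc c ^ 2 * exp (-(1 + 27 * p * δ ^ 2)) = c * exp (-(1 + 27 * p * δ ^ 2)) * c := by ring
      _ ≤ _ := by have := h.cpos; gcongr
  have hqn : q ^ (W + p) ≤ 1 := pow_le_one₀ hq0.le hq1.le
  refine ⟨hint', ?_, ?_, hz', ?_, mul_pos (pow_pos h.cpos 2) (exp_pos _),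
    fun y hy => key y fun r => (hy r).trans (by linarith), fun y hy => ?_⟩
  · rw [← mul_one_sub, abs_mul, abs_of_nonneg (sub_nonneg.2 hqn)]
    exact (mul_le_of_le_one_right (abs_nonneg _) (by linarith [pow_pos hq0 (W + p)])).trans h.hu
  · rw [← mul_one_sub, abs_mul, abs_sub_comm, abs_of_nonneg (by linarith : 0 ≤ β ^ (W + p) - 1)]
    calc |s| * (β ^ (W + p) - 1) ≤ τ * β ^ W * β ^ (W + p) := by
          gcongr
          · linarith
          · exact h.hs
          · linarith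
      _ = _ := by ring
  · rw [← mul_one_sub, abs_mul, abs_of_nonneg (sub_nonneg.2 hqn)]
    have e : |u| * (1 - q ^ (W + p)) * β ^ (W + p + W) = |u| * β ^ W * (β ^ (W + p) - 1) := by
      rw [pow_add β (W + p) W]
      linear_combination (-(|u| * β ^ W)) * hqβn (W + p)
    rw [e]
    nlinarith [h.big]
  · have := key (fun r => 2 * ((z - z * ζ⁻¹ ^ (W + p)) * ζ ^ r).re - y r) fun r => by
      have h7 := abs_central_le hζ hz' r
      have h8 := abs_sub (2 * ((z - z * ζ⁻¹ ^ (W + p)) * ζ ^ r).re) (y r)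
      linarith [hy r]
    refine this.trans (le_of_eq ?_)
    congr 1
    refine Finset.prod_congr rfl fun r _ => ?_
    rw [hint'.cos_eq]
    congr 1; ring

end Crest.Agent.R104
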